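import Crest.Agent.N222.B.Defs2
import Crest.Agent.N222.F.Graph
import Crest.Agent.N222.F.Bump
import Crest.Agent.N222.B.Pic
import Crest.Agent.N222.F.Res
import Crest.Agent.N222.J.LinA0
import Crest.Agent.N222.F.Coord
import Crest.Agent.N222.D.Weyl
import Crest.Agent.R269.GEll_19

-- ▼ part N222/B/Emb
section

/-!
# Row 222, part B: EMB (immersed to embedded) (helper67)

Small graphs over finitely many separating functions keep the pointwise class.
-/

set_option autoImplicit false
set_option linter.unusedSectionVars false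
open MeasureTheory Set Filter Topology Function Metric
open scoped ContDiff InnerProductSpace RealInnerProductSpace

noncomputable section

namespace Crest.Agent.N222

namespace Em

open Imm

variable {d : ℕ} {ι : Type} [Fintype ι] [DecidableEq ι] {X : Type} [TopologicalSpace X]
  [MeasurableSpace X] {M : Imm d ι X} {u y F : X → ℝ}

theorem exists_pos_le [CompactSpace X] {f : X → ℝ} (hf : Continuous f) :
    ∃ C : ℝ, 0 < C ∧ ∀ p, f p ≤ C := by
  obtain ⟨C, hC⟩ := (isCompact_range hf).bddAbove
  exact ⟨max C 1, lt_max_of_lt_right one_pos, fun p => (hC (mem_range_self p)).trans (le_max_left _ _)⟩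

/-- the cost does not increase on a graph -/
theorem cost_le (hu : M.Sm u) (om a : X → ℝ) (p : X) :
    (M.graph u hu).cost om a p ≤ M.cost om a p := by
  unfold Imm.cost
  rw [graph_pre hu]
  refine mul_le_mul_of_nonneg_left (Real.sqrt_le_sqrt ?_) (by norm_num)
  set ψ : X → ℝ := fun q => om q ^ 2 with hψ
  set W : ι → ℝ := fun c => om p ^ 2 * M.pre.D c a p - a p * M.pre.D c ψ p with hW
  set T : ℝ := ∑ c, M.Xf u c p * W c with hT
  have hT' : om p ^ 2 * M.pre.dir (M.Xf u) a p - a p * M.pre.dir (M.Xf u) ψ p = T := by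
    rw [dir_apply, dir_apply, Finset.mul_sum, Finset.mul_sum, ← Finset.sum_sub_distrib]
    exact Finset.sum_congr rfl fun c _ => by simp only [hW]; ring
  have h0 : (om p ^ 2 * (M.gS u).D none a p - a p * (M.gS u).D none ψ p) ^ 2 =
      M.vv u p ^ 2 * T ^ 2 := by
    simp only [gS_D_apply, Option.elim, nu_none, ← hT']; ring
  have h1 : ∀ c, (om p ^ 2 * (M.gS u).D (some c) a p - a p * (M.gS u).D (some c) ψ p) ^ 2 =
      W c ^ 2 - 2 * T * (M.Xf u c p * W c) + T ^ 2 * (M.Xf u c p * M.Xf u c p) := fun c => by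
    have : om p ^ 2 * (M.gS u).D (some c) a p - a p * (M.gS u).D (some c) ψ p =
        W c - M.Xf u c p * T := by
      simp only [gS_D_apply, Option.elim, nu_some, ← hT', hW]; ring
    rw [this]; ring
  rw [Fintype.sum_option, h0, Finset.sum_congr rfl fun c _ => h1 c, Finset.sum_add_distrib,
    Finset.sum_sub_distrib, ← Finset.mul_sum, ← Finset.mul_sum, sum_Xf_sq, ← hT]
  nlinarith [sq_nonneg T]

theorem hess_const_mul (hy : M.Sm y) (ε : ℝ) (a b : ι) (p : X) :
    M.pre.hess (fun q => ε * y q) a b p = ε * M.pre.hess y a b p := by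
  rw [hess_apply, hess_apply, Finset.mul_sum]
  refine Finset.sum_congr rfl fun c _ => ?_
  have : M.pre.D c (fun q => ε * y q) = fun q => ε * M.pre.D c y q :=
    funext fun q => D_const_mul ε (hy.diffAt q) c
  rw [this, D_const_mul ε ((hy.D c).diffAt p)]; ring

theorem sm_mul (hy : M.Sm y) (ε : ℝ) : M.Sm fun q => ε * y q := (sm_const ε).mul hy

theorem abs_A_le (hy : M.Sm y) {ε : ℝ} (hε : 0 ≤ ε) (a b : Option ι) (p : X) :
    |M.A (fun q => ε * y q) a b p| ≤ ε * ∑ c, ∑ e, |M.pre.hess y c e p| := by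
  have hu := sm_mul hy ε
  have hP : ∀ a b, |(M.gS fun q => ε * y q).P a b p| ≤ 1 := fun a b => by
    rw [← graph_pre hu]; exact abs_P_le _ a b p
  rw [A_eq hu, abs_mul, abs_of_pos (vv_pos _ _ _)]
  refine (mul_le_of_le_one_left (abs_nonneg _) (vv_le_one _ _ _)).trans ?_
  rw [Finset.mul_sum]
  refine (Finset.abs_sum_le_sum_abs _ _).trans (Finset.sum_le_sum fun c _ => ?_)
  rw [Finset.mul_sum]
  refine (Finset.abs_sum_le_sum_abs _ _).trans (Finset.sum_le_sum fun e _ => ?_)
  rw [hess_const_mul hy, abs_mul, abs_mul, abs_mul, abs_of_nonneg hε]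
  exact mul_le_of_le_one_left (by positivity)
    (mul_le_one₀ (hP _ _) (abs_nonneg _) (hP _ _))

theorem abs_Xf_le (hy : M.Sm y) {ε : ℝ} (hε : 0 ≤ ε) (a : ι) (p : X) :
    |M.Xf (fun q => ε * y q) a p| ≤ ε * |M.pre.D a y p| := by
  rw [Xf_apply, D_const_mul ε (hy.diffAt p), abs_mul, abs_mul, abs_of_nonneg hε,
    abs_of_pos (vv_pos _ _ _)]
  exact mul_le_of_le_one_left (by positivity) (vv_le_one _ _ _)

/-- the error of the Gauss equation -/
def err (M : Imm d ι X) (F y : X → ℝ) (p : X) : ℝ :=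
  (∑ _a : Option ι, ∑ _b : Option ι, (∑ c, ∑ e, |M.pre.hess y c e p|) ^ 2) +
    2 * ∑ a, ∑ b, |M.pre.Ric a b p - M.pre.hess F a b p| * (|M.pre.D a y p| * |M.pre.D b y p|)

theorem continuous_err (hF : M.Sm F) (hy : M.Sm y) : Continuous (err M F y) := by
  have h1 := fun c e => (hy.hess c e).continuous
  have h2 := fun c e => (hF.hess c e).continuous
  have h3 := fun c e => (M.sm_Ric c e).continuous
  have h4 := fun c => (hy.D c).continuous
  unfold err
  fun_prop

theorem EF_ge (hF : M.Sm F) (hy : M.Sm y) {ε : ℝ} (hε : 0 ≤ ε) (p : X) :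
    M.pre.EF F p - ε ^ 2 * err M F y p ≤ (M.graph _ (sm_mul hy ε)).pre.EF F p := by
  have hu := sm_mul hy ε
  rw [graph_pre hu, gauss hu hF]
  have h1 : M.a2 (fun q => ε * y q) p ≤
      ε ^ 2 * ∑ _a : Option ι, ∑ _b : Option ι, (∑ c, ∑ e, |M.pre.hess y c e p|) ^ 2 := by
    rw [a2_apply, Finset.mul_sum]
    refine Finset.sum_le_sum fun a _ => ?_
    rw [Finset.mul_sum]
    refine Finset.sum_le_sum fun b _ => ?_
    rw [← mul_pow, ← sq, ← sq_abs]
    exact pow_le_pow_left₀ (abs_nonneg _) (abs_A_le hy hε a b p) 2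
  have h2 : M.pre.RicF F (M.Xf fun q => ε * y q) p ≤ ε ^ 2 *
      ∑ a, ∑ b, |M.pre.Ric a b p - M.pre.hess F a b p| * (|M.pre.D a y p| * |M.pre.D b y p|) := by
    simp only [Pre.RicF, Finset.sum_apply, Pi.mul_apply, Pi.sub_apply]
    rw [Finset.mul_sum]
    refine Finset.sum_le_sum fun a _ => ?_
    rw [Finset.mul_sum]
    refine Finset.sum_le_sum fun b _ => ?_
    refine (le_abs_self _).trans ?_
    rw [abs_mul, abs_mul, mul_left_comm (ε ^ 2)]
    refine mul_le_mul_of_nonneg_left ?_ (abs_nonneg _)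
    calc _ ≤ (ε * |M.pre.D a y p|) * (ε * |M.pre.D b y p|) :=
          mul_le_mul (abs_Xf_le hy hε a p) (abs_Xf_le hy hε b p) (abs_nonneg _) (by positivity)
      _ = _ := by ring
  unfold err
  nlinarith [sq_nonneg (M.hF F (fun q => ε * y q) p)]

/-- one small graph -/
theorem step [CompactSpace X] {om : X → ℝ} {a : Fin d → X → ℝ} (h : M.PtData F om a)
    (hy : M.Sm y) : ∃ ε : ℝ, 0 < ε ∧ (M.graph _ (sm_mul hy ε)).PtData F om a := by
  obtain ⟨s, hs, hI⟩ := h.ineq
  obtain ⟨C, hC, hb⟩ := exists_pos_le (f := fun p => err M F y p * om p ^ 4)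
    ((continuous_err h.smF hy).mul (h.smo.continuous.pow 4))
  set ε := min 1 (s / (2 * C)) with hε
  have hε0 : 0 < ε := lt_min one_pos (by positivity)
  have hε1 : ε ≤ 1 := min_le_left _ _
  have hε2 : ε * C ≤ s / 2 := by
    have : ε ≤ s / (2 * C) := min_le_right _ _
    rw [le_div_iff₀ (by positivity)] at this
    linarith
  refine ⟨ε, hε0, h.smF, h.smo, h.sma, ⟨s / 2, by positivity, fun p hp => ?_⟩, h.ess⟩
  have h1 := hI p hp
  have h2 : ∑ i, (M.graph _ (sm_mul hy ε)).cost om (a i) p ≤ ∑ i, M.cost om (a i) p :=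
    Finset.sum_le_sum fun i _ => cost_le _ _ _ _
  have h3 := mul_le_mul_of_nonneg_right (EF_ge h.smF hy hε0.le p) (by positivity : 0 ≤ om p ^ 4)
  have h4 : ε ^ 2 * (err M F y p * om p ^ 4) ≤ ε ^ 2 * C :=
    mul_le_mul_of_nonneg_left (hb p) (by positivity)
  have h5 : ε ^ 2 * C ≤ ε * C :=
    mul_le_mul_of_nonneg_right (by nlinarith) hC.le
  nlinarith

end Em

theorem emb : EmbStmt := by
  intro d ι _ _ X _ _ _ _ _ M hX F om a h
  obtain ⟨n, y, hy, hsep⟩ := M.exists_separating
  have key : ∀ s : Finset (Fin n), ∃ (κ : Type) (_ : Fintype κ) (_ : DecidableEq κ)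
      (N : Imm d κ X), N.ch = M.ch ∧ N.PtData F om a ∧
        ∀ p q, N.x p = N.x q → ∀ j ∈ s, y j p = y j q := by
    intro s
    induction s using Finset.induction_on with
    | empty => exact ⟨ι, inferInstance, inferInstance, M, rfl, h, fun _ _ _ _ hj => by simp at hj⟩
    | insert j s _ ih =>
      obtain ⟨κ, _, _, N, hch, hN, hs⟩ := ih
      have hyN : N.Sm (y j) := by
        change SmA N.ch (y j)
        rw [hch]; exact hy j
      obtain ⟨ε, hε, hP⟩ := Em.step hN hyN
      refine ⟨Option κ, inferInstance, inferInstance, _, hch, hP, fun p q hpq i hi => ?_⟩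
      rcases Finset.mem_insert.1 hi with rfl | hi
      · exact mul_left_cancel₀ hε.ne' (congrArg (fun w : E (Option κ) => w none) hpq)
      · exact hs p q (congrArg down hpq) i hi
  obtain ⟨κ, _, _, N, -, hN, hs⟩ := key Finset.univ
  exact ⟨κ, _, _, X, _, inferInstance, inferInstance, _, inferInstance, N, hX,
    fun p q hpq => hsep p q fun k => hs p q hpq k (Finset.mem_univ _), F, om, a, hN⟩

end Crest.Agent.N222

end
end

-- ▼ part N222/B/Close
section

/-!
# Row 222, part B: CLOSE (form class to pointwise class on a compact manifold) (helper67)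
-/

set_option autoImplicit false
set_option linter.unusedSectionVars false
open MeasureTheory Set Filter Topology Function Metric
open scoped ContDiff InnerProductSpace RealInnerProductSpace

noncomputable section

namespace Crest.Agent.N222

namespace Cl

open Imm

variable {d : ℕ} {κ : Type} [Fintype κ] [DecidableEq κ] {X Y : Type}
  [TopologicalSpace X] [T2Space X] [SecondCountableTopology X] [MeasurableSpace X] [BorelSpace X]
  [TopologicalSpace Y] [T2Space Y] [SecondCountableTopology Y] [MeasurableSpace Y] [BorelSpace Y]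
  [CompactSpace Y] {M : Imm d κ X} {N : Imm d κ Y} {e : OpenPartialHomeomorph X Y}

theorem hcs (f : Y → ℝ) : HasCompactSupport f := (isClosed_tsupport f).isCompact

theorem int {f : Y → ℝ} (hf : N.Sm f) : Integrable f N.mu :=
  hf.continuous.integrable_of_hasCompactSupport (hcs f)

theorem gam_mul {w z : Y → ℝ} (hw : N.Sm w) (hz : N.Sm z) (y : Y) :
    N.pre.gam (fun q => w q * z q) (fun q => w q * z q) y = w y ^ 2 * N.pre.gam z z y +
      N.pre.gam (fun q => z q ^ 2) (fun q => w q ^ 2) y / 2 + z y ^ 2 * N.pre.gam w w y := by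
  simp only [gam_apply, D_mul (hw.diffAt y) (hz.diffAt y), Pc.D_sq hw, Pc.D_sq hz, Finset.mul_sum,
    Finset.sum_div, ← Finset.sum_add_distrib]
  exact Finset.sum_congr rfl fun a _ => by ring

/-- the potential on the compact manifold -/
def q0 (N : Imm d κ Y) (w V1 : Y → ℝ) (y : Y) : ℝ :=
  (w y ^ 2 * N.pre.scal y - V1 y) / 4 + N.pre.gam w w y - N.pre.lap (fun q => w q ^ 2) y / 2

theorem sm_q0 {w V1 : Y → ℝ} (hw : N.Sm w) (hV : N.Sm V1) : N.Sm (q0 N w V1) :=
  (((((hw.pow 2).mul N.sm_scal).sub hV).div (sm_const 4) fun _ => by norm_num).add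
    (hw.gam hw)).sub ((hw.pow 2).lap.div (sm_const 2) fun _ => by norm_num)

/-- the form inequality on the compact manifold -/
theorem form_Y {w V1 z : Y → ℝ} (hw : N.Sm w) (hV : N.Sm V1) (hz : N.Sm z)
    (hw1 : ∀ y, w y ^ 2 ≤ 1) (h : 0 ≤ ∫ y, (4 * N.pre.gam (fun q => w q * z q)
      (fun q => w q * z q) y + (w y ^ 2 * N.pre.scal y - V1 y) * z y ^ 2) ∂N.mu) :
    0 ≤ ∫ y, (N.pre.gam z z y + q0 N w V1 y * z y ^ 2) ∂N.mu := by
  have hA : N.Sm fun y => w y ^ 2 * N.pre.gam z z y + q0 N w V1 y * z y ^ 2 :=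
    ((hw.pow 2).mul (hz.gam hz)).add ((sm_q0 hw hV).mul (hz.pow 2))
  have hB : N.Sm fun y => z y ^ 2 * N.pre.lap (fun q => w q ^ 2) y :=
    (hz.pow 2).mul (hw.pow 2).lap
  have hC : N.Sm (N.pre.gam (fun q => z q ^ 2) fun q => w q ^ 2) := (hz.pow 2).gam (hw.pow 2)
  have h1 : ∀ y, 4 * N.pre.gam (fun q => w q * z q) (fun q => w q * z q) y +
      (w y ^ 2 * N.pre.scal y - V1 y) * z y ^ 2 =
      4 * (w y ^ 2 * N.pre.gam z z y + q0 N w V1 y * z y ^ 2) +
        2 * (z y ^ 2 * N.pre.lap (fun q => w q ^ 2) y +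
          N.pre.gam (fun q => z q ^ 2) (fun q => w q ^ 2) y) := fun y => by
    rw [gam_mul hw hz, q0]; ring
  have h2 := integral_mul_lap (hz.pow 2).c1 (hcs _) (hw.pow 2)
  simp only [h1] at h
  rw [integral_add ((int hA).const_mul 4) ((int (hB.add hC)).const_mul 2),
    integral_const_mul, integral_const_mul, integral_add (int hB) (int hC), h2] at h
  have h3 : 0 ≤ ∫ y, (w y ^ 2 * N.pre.gam z z y + q0 N w V1 y * z y ^ 2) ∂N.mu := by linarith
  refine h3.trans (integral_mono (int hA) (int ((hz.gam hz).add ((sm_q0 hw hV).mul (hz.pow 2))))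
    fun y => ?_)
  have := mul_le_of_le_one_left (gam_self_nonneg (M := N) z y) (hw1 y)
  simp only
  linarith

/-- transfer of the form along the open embedding -/
theorem transfer (hx : ∀ p ∈ e.source, N.x (e p) = M.x p) {V χ : X → ℝ} (hV : M.Form V)
    (hχ : M.Tst χ) (hs : tsupport χ ⊆ e.source) {z : Y → ℝ} (hz : N.Sm z) :
    0 ≤ ∫ y, (4 * N.pre.gam (fun q => push e χ q * z q) (fun q => push e χ q * z q) y +
      (push e χ y ^ 2 * N.pre.scal y - push e (fun p => χ p ^ 2 * V p) y) * z y ^ 2) ∂N.mu := by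
  have hζ : M.Tst fun p => χ p * z (e p) :=
    ⟨SmOn.smul_sm (f := fun p => z (e p)) (U := e.source)
      (fun p hp => (loc_of_mem hx hp).contDiffAt hz) hχ.sm hs, hχ.cs.mul_right⟩
  refine (hV _ hζ).trans_eq ?_
  rw [← setIntegral_eq_integral_of_forall_compl_eq_zero (s := e.source),
    ← setIntegral_eq_integral_of_forall_compl_eq_zero (s := e.target), setIntegral_iso hx]
  · refine setIntegral_congr_fun e.open_source.measurableSet fun p hp => ?_
    have hl := loc_of_mem hx hp
    have h1 : (fun p => χ p * z (e p)) =ᶠ[𝓝 p] fun p => push e χ (e p) * z (e p) := by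
      filter_upwards [e.open_source.mem_nhds hp] with q hq
      rw [push_apply χ hq]
    rw [← hl.gam_iso, ← hl.scal_iso, push_apply _ hp, push_apply _ hp, gam_congr h1 h1]
    ring
  · intro y hy
    have h1 : y ∉ tsupport fun q => push e χ q * z q := fun h => hy <| by
      have := tsupport_mul_subset_left h
      rw [tsupport_push hχ.cs hs] at this
      obtain ⟨p, hp, rfl⟩ := this
      exact e.map_source (hs hp)
    rw [Pc.gam_eq_zero _ h1]
    simp [push, indicator_of_notMem hy]
  · intro p hp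
    have h0 : p ∉ tsupport χ := fun h => hp (hs h)
    have h1 : p ∉ tsupport fun p => χ p * z (e p) := fun h => h0 (tsupport_mul_subset_left h)
    rw [Pc.gam_eq_zero _ h1, image_eq_zero_of_notMem_tsupport h0]
    simp

/-- `E(2 log y)` -/
theorem EF_log {y : Y → ℝ} (hy : N.Sm y) (h0 : ∀ p, 0 < y p) (p : Y) :
    N.pre.EF (fun q => 2 * Real.log (y q)) p = N.pre.scal p - 4 * (N.pre.lap y p / y p) := by
  have hl : N.Sm fun q => Real.log (y q) := hy.log fun q => (h0 q).ne'
  have h1 := lap_comp (p := p) hy (φ := Real.log) (Real.contDiffAt_log.2 (h0 p).ne')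
  have h2 : ∀ a, N.pre.D a (fun q => 2 * Real.log (y q)) p = 2 * ((y p)⁻¹ * N.pre.D a y p) :=
    fun a => by
      rw [D_const_mul 2 (hl.diffAt p), D_comp (hy.diffAt p) (Real.hasDerivAt_log (h0 p).ne')]
  have h3 : N.pre.gam (fun q => 2 * Real.log (y q)) (fun q => 2 * Real.log (y q)) p =
      4 * ((y p)⁻¹ ^ 2 * N.pre.gam y y p) := by
    simp only [gam_apply, h2, Finset.mul_sum]
    exact Finset.sum_congr rfl fun a _ => by ring
  rw [EF_apply, lap_const_mul 2 hl, h1, h3, Real.deriv_log', deriv_inv]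
  have := (h0 p).ne'
  field_simp
  ring

theorem core (hL : LinAStmt) (h4 : Ess4Stmt) (hx : ∀ p ∈ e.source, N.x (e p) = M.x p)
    {V om : X → ℝ} {a : Fin d → X → ℝ} (h : M.FormData V om a) (hK : tsupport om ⊆ e.source) :
    ∃ F om' a', N.PtData F om' a' := by
  obtain ⟨χ, hχ, hs, h01, h1⟩ := M.exists_bump h.smo.cs e.open_source hK
  obtain ⟨s, hs0, hI⟩ := h.ineq
  have hw := hχ.push hx hs
  have tst : ∀ {f : X → ℝ}, M.Sm f → N.Tst (push e fun p => χ p * f p) := fun hf =>
    Tst.push hx ⟨hχ.sm.mul hf, hχ.cs.mul_right⟩ (tsupport_mul_subset_left.trans hs)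
  have hV1 : N.Sm (push e fun p => χ p ^ 2 * V p) := by
    have := (tst (hχ.sm.mul h.smV)).sm
    simpa only [← mul_assoc, ← sq] using this
  have ho := h.smo.push hx hK
  obtain ⟨B, hB, hb⟩ := Em.exists_pos_le (f := fun y => push e om y ^ 4) (ho.sm.continuous.pow 4)
  have hw1 : ∀ y, push e χ y ^ 2 ≤ 1 := fun y => by
    by_cases hy : y ∈ e.target
    · rw [push, indicator_of_mem hy]
      exact pow_le_one₀ (h01 _).1 (h01 _).2
    · simp [push, indicator_of_notMem hy]
  set q := q0 N (push e χ) (push e fun p => χ p ^ 2 * V p) with hq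
  have hqs : N.Sm q := sm_q0 hw.sm hV1
  set δ := s / (8 * B) with hδ
  have hδ0 : 0 < δ := by positivity
  obtain ⟨y, hy, hyq, hy0⟩ := hL d κ Y N inferInstance (fun p => q p + δ) δ
    (hqs.add (sm_const δ)) hδ0 (fun z hz => by
      have h2 := form_Y hw.sm hV1 hz hw1 (transfer hx h.form hχ hs hz)
      have h3 : ∀ p, N.pre.gam z z p + (q p + δ) * z p ^ 2 =
          (N.pre.gam z z p + q p * z p ^ 2) + δ * z p ^ 2 := fun p => by ring
      simp only [h3]
      rw [integral_add (int ((hz.gam hz).add (hqs.mul (hz.pow 2))))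
        ((int (hz.pow 2)).const_mul δ), integral_const_mul]
      linarith) (fun _ => 1) (sm_const 1)
  have hy0 := hy0 fun _ => one_pos
  refine ⟨fun p => 2 * Real.log (y p), push e om, fun i => push e fun p => χ p * a i p,
    (sm_const 2).mul (hy.log fun p => (hy0 p).ne'), ho.sm, fun i => (tst (h.sma i)).sm,
    ⟨s / 2, by positivity, fun y' hy' => ?_⟩, ?_⟩
  · have ht : y' ∈ e.target := by
      by_contra ht
      exact hy' (indicator_of_notMem ht _)
    obtain ⟨p, hp, rfl⟩ : ∃ p ∈ e.source, e p = y' := ⟨_, e.map_target ht, e.right_inv ht⟩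
    rw [push_apply _ hp] at hy'
    have hl := loc_of_mem hx hp
    have hp1 : ∀ᶠ p' in 𝓝 p, χ p' = 1 :=
      eventually_nhdsSet_iff_forall.1 h1 p (subset_tsupport _ hy')
    have hχp : χ p = 1 := hp1.self_of_nhds
    have hsrc := e.open_source.mem_nhds hp
    -- the cost
    have hc : ∀ i, N.cost (push e om) (push e fun p => χ p * a i p) (e p) = M.cost om (a i) p := by
      intro i
      have e1 : (fun p' => push e om (e p') ^ 2) =ᶠ[𝓝 p] fun p' => om p' ^ 2 := by
        filter_upwards [hsrc] with p' hp'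
        rw [push_apply _ hp']
      have e2 : (fun p' => push e (fun p => χ p * a i p) (e p')) =ᶠ[𝓝 p] a i := by
        filter_upwards [hsrc, hp1] with p' hp' h1'
        rw [push_apply _ hp', h1', one_mul]
      rw [← hl.cost_iso]
      simp only [Imm.cost, D_congr e1, D_congr e2, push_apply _ hp, hχp, one_mul]
    -- the potential
    have hqp : q (e p) = (N.pre.scal (e p) - V p) / 4 := by
      have e1 : (fun p' => push e χ (e p')) =ᶠ[𝓝 p] fun _ => 1 := by
        filter_upwards [hsrc, hp1] with p' hp' h1'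
        rw [push_apply _ hp', h1']
      have e2 : (fun p' => push e χ (e p') ^ 2) =ᶠ[𝓝 p] fun _ => 1 :=
        e1.mono fun p' h' => by simp only at h' ⊢; rw [h', one_pow]
      rw [hq, q0, ← hl.gam_iso, ← hl.lap_iso, gam_congr e1 e1, lap_congr e2, lap_const,
        push_apply _ hp, push_apply _ hp, hχp]
      simp [gam_apply, D_const]
    have hE : V p - 4 * δ ≤ N.pre.EF (fun p => 2 * Real.log (y p)) (e p) := by
      have h2 := hyq (e p)
      have h3 : N.pre.lap y (e p) / y (e p) ≤ q (e p) + δ := by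
        rw [div_le_iff₀ (hy0 _)]
        linarith
      rw [EF_log hy hy0]
      linarith
    have h2 := hI p hy'
    have h3 := hb (e p)
    have h5 : 4 * δ * B = s / 2 := by rw [hδ]; field_simp; norm_num
    simp only [hc, push_apply _ hp, hχp, one_mul] at h3 ⊢
    have h6 := mul_le_mul_of_nonneg_right hE (by positivity : 0 ≤ om p ^ 4)
    have h7 := mul_le_mul_of_nonneg_left h3 (by positivity : 0 ≤ 4 * δ)
    nlinarith
  · refine h4 X Y d (e.restrOpen (interior {p | χ p = 1}) isOpen_interior) om a _ _ h.smo.cs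
      (fun p hp => ⟨hK hp, mem_interior_iff_mem_nhds.2 (eventually_nhdsSet_iff_forall.1 h1 p hp)⟩)
      (fun i => (h.sma i).continuous) (fun p hp => ?_) h.ess
    have hp1 : χ p = 1 := interior_subset (s := {p | χ p = 1}) hp.2
    refine ⟨push_apply _ hp.1, fun i => (push_apply _ hp.1).trans ?_⟩
    rw [hp1, one_mul]

end Cl

theorem close (hD : DblStmt) (hL : LinAStmt) (h4 : Ess4Stmt) : CloseStmt := by
  intro d ι _ _ X _ _ _ _ _ M V om a h
  obtain ⟨Y, _, _, _, _, _, _, N, e, c, hK, hx⟩ := hD d ι X M _ h.smo.cs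
  have h' : (M.pad c).FormData V om a := by
    refine ⟨h.smV, ⟨h.smo.sm, h.smo.cs⟩, h.sma, fun z hz => ?_, ?_, h.ess⟩
    · rw [M.pad_gam, M.pad_scal, M.pad_mu]
      exact h.form z ⟨hz.sm, hz.cs⟩
    · simpa only [Imm.Ineq, M.pad_cost] using h.ineq
  exact ⟨Option ι, _, _, Y, _, inferInstance, inferInstance, _, inferInstance, N, inferInstance,
    Cl.core hL h4 (M := M.pad c) hx h' hK⟩

end Crest.Agent.N222

end
end

-- ▼ part N222/J/LinA

/-!
# Row 222, LIN (a), part 2 (helper73): regularity, `linA : LinAStmt`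
-/

set_option autoImplicit false
set_option linter.unusedSectionVars false
open MeasureTheory Set Filter Topology Function Metric
open scoped ContDiff
open Crest.GeometryTopology.CoordMetric
open Crest.Agent.R202.Ell (divA)
open Crest.Agent.R269.GEll_19 (gen_ell Wk)

noncomputable section

namespace Crest.Agent.N222

namespace La

open Imm D.Weyl

theorem lb_congr {n : ℕ} (g : MetricField n) {u v : E (Fin n) → ℝ} {x : E (Fin n)}
    (h : u =ᶠ[𝓝 x] v) : laplaceBeltrami g u x = laplaceBeltrami g v x := by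
  unfold laplaceBeltrami pderiv
  congr 1
  refine Finset.sum_congr rfl fun i _ => ?_
  congr 1
  refine Filter.EventuallyEq.fderiv_eq ?_
  filter_upwards [h.eventuallyEq_nhds] with y hy
  simp only [hy.fderiv_eq]

variable {d : ℕ} {ι : Type} [Fintype ι] [DecidableEq ι] {X : Type} [TopologicalSpace X]
  [T2Space X] [SecondCountableTopology X] [MeasurableSpace X] [BorelSpace X] [CompactSpace X]
  {M : Imm d ι X} {q f u : X → ℝ} {e : OpenPartialHomeomorph X (E (Fin d))}

theorem lap_of_ev (he : IsChart M.x e) {p : X} (hp : p ∈ e.source) {y : X → ℝ}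
    {v : E (Fin d) → ℝ} (hv : ContDiffAt ℝ ∞ v (e p)) (h : y ∘ e.symm =ᶠ[𝓝 (e p)] v) :
    M.pre.lap y p = laplaceBeltrami (gram (M.x ∘ e.symm)) v (e p) := by
  rw [lap_coord he hp ((hv.congr_of_eventuallyEq h).of_le R247.Bo84.two_le_infty), lb_congr _ h]

theorem loc_int (he : IsChart M.x e) (hu : Integrable u M.mu) :
    LocallyIntegrableOn (fun z => u (e.symm z)) e.target := by
  have h1 := ((integrableOn_chart he u).1 hu.integrableOn).locallyIntegrableOn.continuousOn_mul
    ((continuousOn_jac he).inv₀ fun z hz => (jac_pos (he.inj z hz)).ne')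
    e.open_target.isLocallyClosed
  rw [locallyIntegrableOn_iff e.open_target.isLocallyClosed] at h1 ⊢
  refine fun K hK hc => (h1 K hK hc).congr_fun (fun z hz => ?_) hc.measurableSet
  exact inv_mul_cancel_left₀ (jac_pos (he.inj z (hK hz))).ne' _

theorem ae_back (he : IsChart M.x e) (hu : Integrable u M.mu) {v : E (Fin d) → ℝ}
    (hv : ContinuousOn v e.target) (h : ∀ᵐ z, z ∈ e.target → v z = u (e.symm z)) :
    (fun p => v (e p)) =ᵐ[M.mu.restrict e.source] u := by
  have m1 : AEStronglyMeasurable (fun p => v (e p) - u p) (M.mu.restrict e.source) :=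
    ((hv.comp e.continuousOn e.mapsTo).aestronglyMeasurable e.open_source.measurableSet).sub
      hu.aestronglyMeasurable.restrict
  have h1 : ∫⁻ p in e.source, ‖v (e p) - u p‖ₑ ∂M.mu = 0 := by
    rw [setLIntegral_chart he]
    refine lintegral_eq_zero_of_ae_eq_zero ?_
    filter_upwards [ae_restrict_of_ae h, ae_restrict_mem e.open_target.measurableSet] with z h1 hz
    simp [e.right_inv hz, h1 hz]
  filter_upwards [(lintegral_eq_zero_iff' m1.enorm).1 h1] with p hp
  simpa [sub_eq_zero] using hp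

/-- regularity in one chart -/
theorem reg (he : IsChart M.x e) (hq : M.Sm q) (hf : M.Sm f) (hu : Integrable u M.mu)
    (h : ∀ φ, M.Sm φ → ∫ p, u p * (-M.pre.lap φ p + q p * φ p) ∂M.mu = ∫ p, f p * φ p ∂M.mu) :
    ∃ v : E (Fin d) → ℝ, ContDiffOn ℝ ∞ v e.target ∧
      (fun p => v (e p)) =ᵐ[M.mu.restrict e.source] u ∧ ∀ p ∈ e.source,
        -laplaceBeltrami (gram (M.x ∘ e.symm)) v (e p) + q p * v (e p) = f p := by
  have hg := he.isRiemannianOn
  have hJ : ContDiffOn ℝ ∞ (fun z => √(gram (M.x ∘ e.symm) z).det) e.target := fun z hz =>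
    (R247.Bo84.contDiffAt_sqrt_det hg hz).contDiffWithinAt
  obtain ⟨v, hv, hvu, hve⟩ := gen_ell (U := e.target) (a := cA (gram (M.x ∘ e.symm)))
    (b := fun _ _ => 0) (c := fun z => -(√(gram (M.x ∘ e.symm) z).det * q (e.symm z)))
    ⟨e.open_target, cA_smooth hg, fun _ hz => cA_posDef hg hz, fun _ => contDiffOn_const,
      (hJ.mul (hq.chart he)).neg⟩
    (f := fun z => -(√(gram (M.x ∘ e.symm) z).det * f (e.symm z))) (hJ.mul (hf.chart he)).neg
    (loc_int he hu) (by
      intro φ h1 h2 h3
      have a1 : ∀ z ∈ e.target, push e.symm φ (e.symm z) = φ z := fun z hz => push_apply φ hz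
      have a2 : tsupport (push e.symm φ) ⊆ e.source := by
        rw [tsupport_push h2 h3]
        rintro _ ⟨z, hz, rfl⟩
        exact e.map_target (h3 hz)
      have a3 : ∀ z ∈ e.target, push e.symm φ ∘ e.symm =ᶠ[𝓝 z] φ := fun z hz =>
        eventually_of_mem (e.open_target.mem_nhds hz) a1
      have a4 : M.Sm (push e.symm φ) := (smOn_of_chart he subset_rfl fun p hp =>
        h1.contDiffAt.congr_of_eventuallyEq (a3 _ (e.map_source hp))).sm_of_tsupport a2
      have a5 : ∀ z ∈ e.target, M.pre.lap (push e.symm φ) (e.symm z) =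
          laplaceBeltrami (gram (M.x ∘ e.symm)) φ z := fun z hz => by
        rw [lap_of_ev he (e.map_target hz) h1.contDiffAt (a3 _ (e.map_source (e.map_target hz))),
          e.right_inv hz]
      have a6 := h _ a4
      rw [integral_chart he, integral_chart he] at a6
      · rw [← setIntegral_eq_integral_of_forall_compl_eq_zero (s := e.target),
          ← setIntegral_eq_integral_of_forall_compl_eq_zero (s := e.target)
            (f := fun z => -(_ * _) * φ z), ← neg_inj, ← integral_neg, ← integral_neg]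
        · refine (setIntegral_congr_fun e.open_target.measurableSet fun z hz => ?_).trans
            (a6.trans (setIntegral_congr_fun e.open_target.measurableSet fun z hz => ?_))
          · simp only [Wk, divA_eq hg hz, a1 z hz, a5 z hz, jac_eq_sqrt_det, zero_mul, pderiv,
              fderiv_fun_const, smul_eq_mul, Pi.zero_apply, zero_apply, Finset.sum_const_zero]
            ring
          · simp only [a1 z hz, jac_eq_sqrt_det, smul_eq_mul]
            ring
        · intro z hz
          rw [image_eq_zero_of_notMem_tsupport fun h => hz (h3 h), mul_zero]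
        · intro z hz
          simp [Wk, divA_zero_off _ fun h => hz (h3 h), pderiv,
            image_eq_zero_of_notMem_tsupport fun h => hz (h3 h)]
      · intro p hp
        by_contra h0
        exact hp (by simp [image_eq_zero_of_notMem_tsupport fun h => h0 (a2 h)])
      · intro p hp
        by_contra h0
        exact hp (by simp [image_eq_zero_of_notMem_tsupport fun h => h0 (a2 h),
          lap_eq_zero_of_notMem fun h => h0 (a2 h)]))
  refine ⟨v, hv, ae_back he hu hv.continuousOn hvu, fun p hp => ?_⟩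
  have hz := e.map_source hp
  have b1 := hve _ hz
  have b2 : 0 < √(gram (M.x ∘ e.symm) (e p)).det :=
    jac_eq_sqrt_det (M.x ∘ e.symm) _ ▸ jac_pos (he.inj _ hz)
  simp only [divA_eq hg hz, zero_mul, Finset.sum_const_zero, e.left_inv hp] at b1
  refine mul_left_cancel₀ b2.ne' ?_
  linarith

end La

open La Imm in
theorem linA : LinAStmt := by
  intro d ι _ _ X _ _ _ _ _ M _ q δ hq hδ h f hf
  obtain ⟨u, hu, hw⟩ := weak hq hδ h hf
  choose v hv hvu hve using fun p => reg (M.isChart p) hq hf hu hw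
  have hc : ∀ p, ContinuousOn (fun z => v p (M.ch p z)) (M.ch p).source := fun p =>
    (hv p).continuousOn.comp (M.ch p).continuousOn (M.ch p).mapsTo
  have h1 : ∀ p, ∀ z ∈ (M.ch p).source, v z (M.ch z z) = v p (M.ch p z) := fun p z hz =>
    Measure.eqOn_open_of_ae_eq (μ := M.mu) (U := (M.ch z).source ∩ (M.ch p).source)
      (EventuallyEq.trans (ae_restrict_of_ae_restrict_of_subset inter_subset_left (hvu z))
        (EventuallyEq.symm (ae_restrict_of_ae_restrict_of_subset inter_subset_right (hvu p))))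
      ((M.ch z).open_source.inter (M.ch p).open_source) ((hc z).mono inter_subset_left)
      ((hc p).mono inter_subset_right) ⟨M.mem z, hz⟩
  have h2 : ∀ p, (fun z => v z (M.ch z z)) ∘ (M.ch p).symm =ᶠ[𝓝 (M.ch p p)] v p := fun p => by
    filter_upwards [(M.ch p).open_target.mem_nhds ((M.ch p).map_source (M.mem p))] with z hz
    rw [comp_apply, h1 p _ ((M.ch p).map_target hz), (M.ch p).right_inv hz]
  have h3 : ∀ p, ContDiffAt ℝ ∞ (v p) (M.ch p p) := fun p =>
    (hv p).contDiffAt ((M.ch p).open_target.mem_nhds ((M.ch p).map_source (M.mem p)))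
  have hy : M.Sm fun z => v z (M.ch z z) :=
    sm_of_charts fun p => ⟨M.ch p, M.isChart p, M.mem p, (h3 p).congr_of_eventuallyEq (h2 p)⟩
  have he : ∀ p, -M.pre.lap (fun z => v z (M.ch z z)) p + q p * v p (M.ch p p) = f p := fun p => by
    rw [lap_of_ev (M.isChart p) (M.mem p) (h3 p) (h2 p)]
    exact hve p p (M.mem p)
  exact ⟨_, hy, he, fun h0 => pos hq hδ h hy fun p => (he p).symm ▸ h0 p⟩

end Crest.Agent.N222

end
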