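import Crest.Agent.N222.J.LK
import Crest.Agent.N222.J.Visc
import Crest.Agent.NLib.Ell.Mat
import Crest.Agent.N222.J.Defs
import Crest.Agent.NLib.Ell.Arzela
import Crest.Agent.N346.An.Per
import Crest.Agent.N222.J.Nd
import Crest.Agent.N346.An.Ex
import Crest.Agent.N346.An.Lin
import Crest.Agent.N222.J.CJ
import Crest.Agent.N222.J.Boot

-- ▼ part N222/J/Bd
section

/-!
# Row 222, toolbox J (helper41): uniformly bounded families, and the basic bounds of a `Fam`
-/

set_option autoImplicit false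

open Set Filter Topology Metric
open scoped ContDiff
open Crest.GeometryTopology.CoordMetric Crest.MathPhysics.ExteriorData
open Crest.Agent.R202.Tens Crest.Agent.R247.Bo84 Crest.Agent.N346.Id
open Crest.Agent.R238 (Ell)

noncomputable section

namespace Crest.Agent.N222.J

variable {n : ℕ} {ι F G : Type} [NormedAddCommGroup F] [NormedAddCommGroup G] {S : ι → Set (E n)}
  {f g : ι → E n → F} {u v : ι → E n → ℝ}

/-- uniformly bounded -/
def Bd (S : ι → Set (E n)) (f : ι → E n → F) : Prop := ∃ C, 0 ≤ C ∧ ∀ i, ∀ x ∈ S i, ‖f i x‖ ≤ C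

namespace Bd

theorem of_le {C : ℝ} (h : ∀ i, ∀ x ∈ S i, ‖f i x‖ ≤ C) : Bd S f :=
  ⟨max C 0, le_max_right _ _, fun i x hx => (h i x hx).trans (le_max_left _ _)⟩

theorem mono {w : ι → E n → G} (h : Bd S f) (e : ∀ i, ∀ x ∈ S i, ‖w i x‖ ≤ ‖f i x‖) : Bd S w :=
  let ⟨C, h0, hC⟩ := h; ⟨C, h0, fun i x hx => (e i x hx).trans (hC i x hx)⟩

theorem congr (h : Bd S f) (e : ∀ i, ∀ x ∈ S i, g i x = f i x) : Bd S g :=
  h.mono fun i x hx => (congrArg norm (e i x hx)).le

theorem const (c : F) : Bd S fun _ _ => c := of_le fun _ _ _ => le_rfl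

theorem add (hf : Bd S f) (hg : Bd S g) : Bd S fun i x => f i x + g i x :=
  let ⟨_, _, hC⟩ := hf; let ⟨_, _, hD⟩ := hg
  of_le fun i x hx => (norm_add_le _ _).trans (add_le_add (hC i x hx) (hD i x hx))

theorem neg (hf : Bd S f) : Bd S fun i x => -f i x := hf.mono fun _ _ _ => (norm_neg _).le

theorem sub (hf : Bd S f) (hg : Bd S g) : Bd S fun i x => f i x - g i x :=
  (hf.add hg.neg).congr fun _ _ _ => sub_eq_add_neg _ _

theorem mul (hf : Bd S u) (hg : Bd S v) : Bd S fun i x => u i x * v i x :=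
  let ⟨_, h0, hC⟩ := hf; let ⟨_, _, hD⟩ := hg
  of_le fun i x hx => (norm_mul_le _ _).trans (mul_le_mul (hC i x hx) (hD i x hx) (norm_nonneg _) h0)

theorem app [NormedSpace ℝ F] [NormedSpace ℝ G] {A : ι → E n → F →L[ℝ] G} (hA : Bd S A)
    (hf : Bd S f) : Bd S fun i x => A i x (f i x) :=
  let ⟨_, h0, hC⟩ := hA; let ⟨_, _, hD⟩ := hf
  of_le fun i x hx => ((A i x).le_opNorm _).trans
    (mul_le_mul (hC i x hx) (hD i x hx) (norm_nonneg _) h0)

theorem sum {α : Type*} [Fintype α] {w : α → ι → E n → F} (h : ∀ j, Bd S (w j)) :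
    Bd S fun i x => ∑ j, w j i x := by
  choose C _ hC using h
  exact of_le (C := ∑ j, C j) fun i x hx =>
    (norm_sum_le _ _).trans (Finset.sum_le_sum fun j _ => hC j i x hx)

theorem prodMk {w : ι → E n → G} (hf : Bd S f) (hw : Bd S w) : Bd S fun i x => (f i x, w i x) :=
  let ⟨_, _, hC⟩ := hf; let ⟨_, _, hD⟩ := hw
  of_le fun i x hx => max_le_max (hC i x hx) (hD i x hx)

theorem coord {m : ℕ} {w : ι → E n → E m} (h : Bd S w) (j : Fin m) : Bd S fun i x => w i x j :=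
  h.mono fun i x _ => PiLp.norm_apply_le (w i x) j

theorem of_compact {Z : Type} [TopologicalSpace Z] {K : Set Z} (hK : IsCompact K) {Ψ : Z → F}
    (hΨ : ContinuousOn Ψ K) {z : ι → E n → Z} (hz : ∀ i, ∀ x ∈ S i, z i x ∈ K) :
    Bd S fun i x => Ψ (z i x) :=
  let ⟨_, hC⟩ := hK.exists_bound_of_continuousOn hΨ
  of_le fun i x hx => hC _ (hz i x hx)

end Bd

theorem LK.bd [NormedSpace ℝ F] {a : ℝ} {k : ℕ} (h : LK a S k f) : Bd S f := h.bdd

theorem LB.translate [NormedSpace ℝ F] {Z : E n → F} (hZ : ContDiff ℝ ∞ Z) (x0 : ι → E n) (r : ℝ) :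
    LB (Bl x0 r) fun i y => Z (y - x0 i) := by
  refine ⟨fun i => (hZ.comp (contDiff_id.sub contDiff_const)).contDiffOn, fun k => ?_⟩
  obtain ⟨C, hC⟩ := (isCompact_closedBall (0 : E n) r).exists_bound_of_continuousOn
    (hZ.continuous_iteratedFDeriv (m := k) (by exact_mod_cast le_top)).continuousOn
  refine ⟨C, fun i x hx => ?_⟩
  rw [iteratedFDeriv_comp_sub]
  exact hC _ (mem_closedBall_zero_iff.2 (mem_ball_iff_norm.1 hx).le)

theorem ell_bil {lo hi : ℝ} {A : Matrix (Fin n) (Fin n) ℝ} (h : Ell lo hi A) (Y : E n) :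
    lo * ‖Y‖ ^ 2 ≤ bil A Y Y ∧ bil A Y Y ≤ hi * ‖Y‖ ^ 2 := by
  rw [bil_apply, EuclideanSpace.real_norm_sq_eq]
  exact h.2 _

section Good

variable {P : Type} [NormedAddCommGroup P] [NormedSpace ℝ P] {Φ : P × ℝ × ℝ → ℝ} {I : Set ℝ}
  {K : Set P} {a b : ℝ}

theorem Good.deriv_eq (h : Good Φ I K) (c : P) {t : ℝ} (ht : t ∈ I) (w : ℝ) :
    deriv (fun s => Φ (c, s, w)) t = fderiv ℝ Φ (c, t, w) (0, 1, 0) := by
  have h1 : HasDerivAt (fun s : ℝ => ((c, s, w) : P × ℝ × ℝ)) (0, 1, 0) t :=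
    (hasDerivAt_const t c).prodMk ((hasDerivAt_id t).prodMk (hasDerivAt_const t w))
  exact (((h.at c ht w).differentiableAt (by simp)).hasFDerivAt.comp_hasDerivAt t h1).deriv

theorem Good.contOn_fderiv (h : Good Φ I K) (hab : Icc a b ⊆ I) :
    ContinuousOn (fderiv ℝ Φ) (K ×ˢ Icc a b ×ˢ Icc (0 : ℝ) 1) := fun z hz =>
  ((h.at z.1 (hab hz.2.1) z.2.2).fderiv_right (m := 0) (by simp)).continuousAt.continuousWithinAt

theorem Good.contOn (h : Good Φ I K) (hab : Icc a b ⊆ I) :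
    ContinuousOn Φ (K ×ˢ Icc a b ×ˢ Icc (0 : ℝ) 1) := fun z hz =>
  (h.at z.1 (hab hz.2.1) z.2.2).continuousAt.continuousWithinAt

theorem Good.kappa (h : Good Φ I K) (hK : IsCompact K) (hab : Icc a b ⊆ I) :
    ∃ κ, 0 < κ ∧ ∀ z ∈ K ×ˢ Icc a b ×ˢ Icc (0 : ℝ) 1, κ ≤ fderiv ℝ Φ z (0, 1, 0) :=
  (hK.prod (isCompact_Icc.prod isCompact_Icc)).exists_forall_le'
    ((h.contOn_fderiv hab).clm_apply continuousOn_const) fun z hz => by
      rw [← h.deriv_eq z.1 (hab hz.2.1) z.2.2]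
      exact h.pos _ hz.1 _ (hab hz.2.1) _ hz.2.2

end Good

namespace Fam

variable {P : Type} [NormedAddCommGroup P] [NormedSpace ℝ P] {Φ : P × ℝ × ℝ → ℝ} {I : Set ℝ}
  {K : Set P} {a b lo hi r : ℝ} {x0 : ι → E n} {γ : ι → MetricField n}
  {β : ι → E n → Fin n → ℝ} {c : ι → E n → P}

theorem jd' (h : Fam Φ K a b lo hi r x0 γ β c u) (i : ι) :
    Jd (γ i) one (u i) (ball (x0 i) r) := jd (h.riem i) (h.us i)

theorem state (h : Fam Φ K a b lo hi r x0 γ β c u) (i : ι) (x : E n) (hx : x ∈ ball (x0 i) r) :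
    (c i x, u i x, (cW (γ i) (u i) x)⁻¹) ∈ K ×ˢ Icc a b ×ˢ Icc (0 : ℝ) 1 :=
  ⟨h.cK i x hx, h.uI i x hx, cW_inv_mem (h.riem i) hx _⟩

theorem lkg (h : Fam Φ K a b lo hi r x0 γ β c u) (k : ℕ) (j l : Fin n) :
    LK 1 (Bl x0 r) k fun i x => γ i x j l := (h.gb j l).lk one_pos le_rfl k

theorem bd_om (h : Fam Φ K a b lo hi r x0 γ β c u) :
    Bd (Bl x0 r) fun i x => (cW (γ i) (u i) x)⁻¹ := Bd.of_le (C := 1) fun i x hx => by
  have := cW_inv_mem (h.riem i) hx (u i)
  rw [Real.norm_eq_abs, abs_of_nonneg this.1]; exact this.2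

theorem bd_wv (h : Fam Φ K a b lo hi r x0 γ β c u) :
    Bd (Bl x0 r) fun i => wv (γ i) one (u i) := Bd.of_le (C := 1 / lo + 1) fun i x hx => by
  have h1 := (ell_bil (h.ell i x hx) (wv (γ i) one (u i) x)).1
  rw [(h.jd' i).bil_wv_wv hx] at h1
  have h2 := (h.jd' i).pp_lt_one hx
  have h3 : ‖wv (γ i) one (u i) x‖ ^ 2 ≤ 1 / lo := by
    rw [le_div_iff₀ h.lo_pos]; linarith
  nlinarith [sq_nonneg (‖wv (γ i) one (u i) x‖ - 1), norm_nonneg (wv (γ i) one (u i) x)]

theorem bd_inv (h : Fam Φ K a b lo hi r x0 γ β c u) (j l : Fin n) :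
    Bd (Bl x0 r) fun i x => inverseField (γ i) x j l :=
  Bd.of_le fun i x hx => R238.Ell.sm_abs_inv_le h.lo_pos (h.ell i x hx) j l

theorem bd_invb (h : Fam Φ K a b lo hi r x0 γ β c u) (j l : Fin n) :
    Bd (Bl x0 r) fun i x => inverseField (N346.Id.gb (γ i) one (u i)) x j l :=
  ((h.bd_inv j l).sub ((h.bd_wv.coord j).mul (h.bd_wv.coord l))).congr
    fun i _ hx => (h.jd' i).inverseField_gb hx j l

theorem bd_chris (h : Fam Φ K a b lo hi r x0 γ β c u) (p j l : Fin n) :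
    Bd (Bl x0 r) fun i x => christoffel (γ i) x p j l :=
  (LK.chris one_pos le_rfl h.lo_pos (h.lkg 1) h.ell p j l).bd

theorem bd_ric (h : Fam Φ K a b lo hi r x0 γ β c u) (j l : Fin n) :
    Bd (Bl x0 r) fun i x => ricci (γ i) x j l :=
  (LK.ric one_pos le_rfl h.lo_pos (h.lkg 2) h.ell j l).bd

theorem bd_β (h : Fam Φ K a b lo hi r x0 γ β c u) (j : Fin n) :
    Bd (Bl x0 r) fun i x => β i x j := ((h.βb.lk one_pos le_rfl 0).apply j).bd

theorem bd_Φ (h : Fam Φ K a b lo hi r x0 γ β c u) (hΦ : Good Φ I K) (hK : IsCompact K)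
    (hab : Icc a b ⊆ I) : Bd (Bl x0 r) fun i x => Φ (c i x, u i x, (cW (γ i) (u i) x)⁻¹) :=
  Bd.of_compact (hK.prod (isCompact_Icc.prod isCompact_Icc)) (hΦ.contOn hab) h.state

theorem bd_dΦ (h : Fam Φ K a b lo hi r x0 γ β c u) (hΦ : Good Φ I K) (hK : IsCompact K)
    (hab : Icc a b ⊆ I) :
    Bd (Bl x0 r) fun i x => fderiv ℝ Φ (c i x, u i x, (cW (γ i) (u i) x)⁻¹) :=
  Bd.of_compact (hK.prod (isCompact_Icc.prod isCompact_Icc)) (hΦ.contOn_fderiv hab) h.state

theorem H0_eq (h : Fam Φ K a b lo hi r x0 γ β c u) (i : ι) (x : E n) (hx : x ∈ ball (x0 i) r) :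
    H0 (γ i) one (u i) x = Φ (c i x, u i x, (cW (γ i) (u i) x)⁻¹)
      - ∑ j, β i x j * wv (γ i) one (u i) x j := by
  rw [← h.eq i x hx, cQ_H0 (h.riem i) (h.us i) hx]; ring

theorem bd_H0 (h : Fam Φ K a b lo hi r x0 γ β c u) (hΦ : Good Φ I K) (hK : IsCompact K)
    (hab : Icc a b ⊆ I) : Bd (Bl x0 r) fun i => H0 (γ i) one (u i) :=
  ((h.bd_Φ hΦ hK hab).sub (Bd.sum fun j => (h.bd_β j).mul (h.bd_wv.coord j))).congr h.H0_eq

end Fam

end Crest.Agent.N222.J
end
end

-- ▼ part N222/J/Grad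
section

/-!
# Row 222, toolbox J (helper41): the interior gradient estimate

`ω = 1 / W` satisfies `Δ̄ ω = -ω (|A|² + Ric(X, X) + X(H))`; touch it from below by `δ ζ`.
-/

set_option autoImplicit false

open Set Filter Topology Metric
open scoped ContDiff
open Crest.GeometryTopology.CoordMetric Crest.MathPhysics.ExteriorData
open Crest.Agent.R202.Tens Crest.Agent.R247.Bo84 Crest.Agent.N346.Id

noncomputable section

namespace Crest.Agent.N222.J

variable {n : ℕ} {g : MetricField n} {u : E n → ℝ} {U : Set (E n)} {x : E n}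

local notation "ḡ" => N346.Id.gb g one u
local notation "𝓌" => wv g one u
local notation "ℓ" => ell g one u
local notation "ℋ" => H0 g one u

/-- `ω = 1 / W` -/
abbrev om (g : MetricField n) (u : E n → ℝ) (y : E n) : ℝ := (cW g u y)⁻¹

theorem om_eq (hg : IsRiemannianOn g U) (hx : x ∈ U) : om g u x = Real.exp (-ℓ x) := by
  rw [ell, gm_one, Real.exp_neg, Real.exp_log (cW_pos hg hx u)]

theorem om_ev (hg : IsRiemannianOn g U) (hx : x ∈ U) :
    om g u =ᶠ[𝓝 x] fun y => Real.exp (-ℓ y) := by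
  filter_upwards [hg.isOpen.mem_nhds hx] with y hy using om_eq hg hy

theorem deriv_expneg : deriv (fun t : ℝ => Real.exp (-t)) = fun t => -Real.exp (-t) := by
  funext t
  simpa using ((hasDerivAt_neg t).exp).deriv

theorem contDiffAt_om (hg : IsRiemannianOn g U) (hu : ContDiffOn ℝ ∞ u U) (hx : x ∈ U) :
    ContDiffAt ℝ ∞ (om g u) x := (contDiffAt_cW hg hu hx).inv (cW_pos hg hx u).ne'

theorem grad_om (hg : IsRiemannianOn g U) (hu : ContDiffOn ℝ ∞ u U) (hx : x ∈ U) :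
    grad ḡ (om g u) x = -(om g u x • cov g 𝓌 x (𝓌 x)) := by
  rw [(jd hg hu).cov_wv_wv' hx, Pv_one, sub_zero, grad_congr (om_ev hg hx),
    grad_comp (φ := fun t : ℝ => Real.exp (-t)) (by fun_prop)
      (((jd hg hu).c_ell hx).differentiableAt (by simp)), deriv_expneg, om_eq hg hx, neg_smul]

theorem lap_om (hg : IsRiemannianOn g U) (hu : ContDiffOn ℝ ∞ u U) (hx : x ∈ U) :
    laplaceBeltrami ḡ (om g u) x ≤
      -(om g u x * (bil (ricM g x) (𝓌 x) (𝓌 x) + fderiv ℝ ℋ x (𝓌 x))) := by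
  have hd := jd hg hu
  have e1 : ∀ y ∈ U, Qv g one u y = grad ḡ ℓ y := fun y hy => by
    rw [hd.grad_gb_ell hy, aa_one]; simp
  have e2 : (fun y => Qv g one u y - Pv g one u y) =ᶠ[𝓝 x] grad ḡ ℓ := by
    filter_upwards [hd.nhds hx] with y hy
    rw [Pv_one, sub_zero, e1 y hy]
  have h1 := hd.id_N hx
  rw [divg_congr e2, divg_grad, Vv_one, aa_one, e1 x hx, ← gam_eq_bil hd.riemb hx] at h1
  have h2 := N346.Bd.normSqK_nonneg hd.riemb hx (T := hh g one u) (hd.symT_hh.symm x hx)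
  have h3 : deriv (fun t : ℝ => -Real.exp (-t)) (ℓ x) = Real.exp (-ℓ x) := by
    simpa using ((hasDerivAt_neg (ℓ x)).exp.neg).deriv
  rw [lap_congr (om_ev hg hx), lap_comp hd.riemb hx (φ := fun t : ℝ => Real.exp (-t))
    (by fun_prop) ((hd.c_ell hx).of_le (by norm_cast)), deriv_expneg, h3, h1, om_eq hg hx]
  simp only [map_zero, mul_zero, sub_zero, add_zero]
  nlinarith [mul_nonneg (Real.exp_pos (-ℓ x)).le h2]

theorem om_du (hg : IsRiemannianOn g U) (hu : ContDiffOn ℝ ∞ u U) (hx : x ∈ U) :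
    om g u x * fderiv ℝ u x (𝓌 x) = 1 - om g u x ^ 2 := by
  have hd := jd hg hu
  have h1 := hd.phi_df hx (𝓌 x)
  have h2 := hd.one_sub_pp hx
  have h3 := cW_pos hg hx u
  rw [hd.bil_wv_wv hx, one_mul, gm_one] at h1
  rw [gm_one] at h2
  rw [h1, om, inv_mul_cancel_left₀ h3.ne', inv_pow]
  linarith

variable {P : Type} [NormedAddCommGroup P] [NormedSpace ℝ P] {Φ : P × ℝ × ℝ → ℝ}
  {β : E n → Fin n → ℝ} {c : E n → P}

theorem fderiv_H0 (hg : IsRiemannianOn g U) (hu : ContDiffOn ℝ ∞ u U) (hβ : ContDiffOn ℝ ∞ β U)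
    (hc : ContDiffOn ℝ ∞ c U) (hx : x ∈ U) (hΦ : DifferentiableAt ℝ Φ (c x, u x, om g u x))
    (heq : ∀ y ∈ U, ℋ y = Φ (c y, u y, om g u y) - ∑ j, β y j * 𝓌 y j) (Y : E n) :
    fderiv ℝ ℋ x Y = fderiv ℝ Φ (c x, u x, om g u x) (fderiv ℝ c x Y, 0, 0)
      + fderiv ℝ u x Y * fderiv ℝ Φ (c x, u x, om g u x) (0, 1, 0)
      + fderiv ℝ (om g u) x Y * fderiv ℝ Φ (c x, u x, om g u x) (0, 0, 1)
      - ∑ j, (β x j * (cov g 𝓌 x Y j - Gam g x Y (𝓌 x) j)
        + 𝓌 x j * fderiv ℝ (fun y => β y j) x Y) := by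
  have hn := hg.isOpen.mem_nhds hx
  have dc := ((hc.contDiffAt hn).differentiableAt (by simp)).hasFDerivAt
  have du := ((hu.contDiffAt hn).differentiableAt (by simp)).hasFDerivAt
  have dom := ((contDiffAt_om hg hu hx).differentiableAt (by simp)).hasFDerivAt
  have dw := (((jd hg hu).c_wv hx).differentiableAt (by simp)).hasFDerivAt
  have dβ := fun j => (((contDiffOn_pi.1 hβ j).contDiffAt hn).differentiableAt (by simp)).hasFDerivAt
  have dwj := fun j => (EuclideanSpace.proj j : E n →L[ℝ] ℝ).hasFDerivAt.comp x dw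
  have h1 := (hΦ.hasFDerivAt.comp x (dc.prodMk (du.prodMk dom))).sub
    (HasFDerivAt.fun_sum (u := Finset.univ) fun j _ => (dβ j).mul (dwj j))
  have h2 : ℋ =ᶠ[𝓝 x] fun y => Φ (c y, u y, om g u y) - ∑ j, β y j * 𝓌 y j := by
    filter_upwards [hn] with y hy using heq y hy
  have h3 : ((fderiv ℝ c x Y, fderiv ℝ u x Y, fderiv ℝ (om g u) x Y) : P × ℝ × ℝ) =
      (fderiv ℝ c x Y, 0, 0) + fderiv ℝ u x Y • (0, 1, 0) + fderiv ℝ (om g u) x Y • (0, 0, 1) := by
    simp
  rw [h2.fderiv_eq]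
  refine (congrArg (fun L : E n →L[ℝ] ℝ => L Y) h1.fderiv).trans ?_
  simp only [sub_apply, ContinuousLinearMap.comp_apply,
    ContinuousLinearMap.prod_apply, sum_apply, add_apply,
    smul_apply, smul_eq_mul, cov_apply, Function.comp, PiLp.proj_apply,
    PiLp.add_apply, add_sub_cancel_right]
  rw [h3, map_add, map_add, map_smul, map_smul, smul_eq_mul, smul_eq_mul]

/-- the term that is multiplied by `ω` -/
def Ta (g : MetricField n) (β : E n → Fin n → ℝ) (c : E n → P) (u : E n → ℝ)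
    (D : P × ℝ × ℝ →L[ℝ] ℝ) (x : E n) : ℝ :=
  -(∑ i, ∑ j, ricci g x i j * wv g one u x i * wv g one u x j)
    - D (fderiv ℝ c x (wv g one u x), 0, 0)
    + ∑ j, (wv g one u x j * fderiv ℝ (fun y => β y j) x (wv g one u x)
      - β x j * ∑ i, ∑ l, christoffel g x j i l * wv g one u x i * wv g one u x l)

/-- the term that is multiplied by `δ` -/
def Tb (g : MetricField n) (β : E n → Fin n → ℝ) (u ζ : E n → ℝ) (D : P × ℝ × ℝ →L[ℝ] ℝ)
    (x : E n) : ℝ :=
  H0 g one u x * fderiv ℝ ζ x (wv g one u x)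
    - om g u x * fderiv ℝ ζ x (wv g one u x) * D (0, 0, 1)
    - ∑ j, β x j * ∑ l, inverseField (N346.Id.gb g one u) x j l * d1 ζ x l
    - ∑ i, ∑ j, inverseField (N346.Id.gb g one u) x i j *
      (d2 ζ x i j - ∑ k, christoffel g x k i j * d1 ζ x k)

theorem grad_pt (hg : IsRiemannianOn g U) (hu : ContDiffOn ℝ ∞ u U) (hβ : ContDiffOn ℝ ∞ β U)
    (hc : ContDiffOn ℝ ∞ c U) (hx : x ∈ U) (hΦ : DifferentiableAt ℝ Φ (c x, u x, om g u x))
    (heq : ∀ y ∈ U, ℋ y = Φ (c y, u y, om g u y) - ∑ j, β y j * 𝓌 y j) {ζ : E n → ℝ} {δ : ℝ}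
    (hζ : ContDiffAt ℝ 2 ζ x) (hm : IsLocalMax (fun y => δ * ζ y - om g u y) x) :
    (1 - om g u x ^ 2) * fderiv ℝ Φ (c x, u x, om g u x) (0, 1, 0) ≤
      om g u x * Ta g β c u (fderiv ℝ Φ (c x, u x, om g u x)) x
        + δ * Tb g β u ζ (fderiv ℝ Φ (c x, u x, om g u x)) x := by
  have hd := jd hg hu
  have ho2 : ContDiffAt ℝ 2 (om g u) x := (contDiffAt_om hg hu hx).of_le (by norm_cast)
  have hz2 : ContDiffAt ℝ 2 (fun y => δ * ζ y) x := contDiffAt_const.mul hζ
  have hζd : DifferentiableAt ℝ ζ x := hζ.differentiableAt (by norm_num)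
  have h1 := N346.Bd.lap_le_of_max hd.riemb hx hz2 ho2 hm
  have h2 : fderiv ℝ (om g u) x = δ • fderiv ℝ ζ x := by
    rw [← (N346.Bd.touch_of_max hz2 ho2 hm).1, fderiv_const_mul hζd]
  have h3 : ∀ j, om g u x * cov g 𝓌 x (𝓌 x) j = -(δ * ∑ l, inverseField ḡ x j l * d1 ζ x l) := by
    intro j
    have h4 := congrArg (fun v : E n => v j) (grad_om hg hu hx)
    rw [grad_eq_sharp, h2, map_smul, ← grad_eq_sharp] at h4
    simp only [PiLp.smul_apply, PiLp.neg_apply, smul_eq_mul, grad_apply] at h4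
    rw [← neg_eq_iff_eq_neg, ← h4]; rfl
  have h5 := lap_om hg hu hx
  rw [fderiv_H0 hg hu hβ hc hx hΦ heq, h2, bil_ricM] at h5
  rw [lap_const_mul hd.riemb hx δ hζ, hd.lap_gb hx hζ, lv_one, gam_const_right, traceK] at h1
  simp only [hessM_eq g hζ] at h1
  have h6 : om g u x * ∑ j, (β x j * (cov g 𝓌 x (𝓌 x) j - Gam g x (𝓌 x) (𝓌 x) j)
      + 𝓌 x j * fderiv ℝ (fun y => β y j) x (𝓌 x)) =
      om g u x * ∑ j, (𝓌 x j * fderiv ℝ (fun y => β y j) x (𝓌 x)
        - β x j * ∑ i, ∑ l, christoffel g x j i l * 𝓌 x i * 𝓌 x l)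
      - δ * ∑ j, β x j * ∑ l, inverseField ḡ x j l * d1 ζ x l := by
    rw [Finset.mul_sum, Finset.mul_sum, Finset.mul_sum (a := δ), ← Finset.sum_sub_distrib]
    refine Finset.sum_congr rfl fun j _ => ?_
    rw [Gam_apply]
    linear_combination β x j * h3 j
  rw [← om_du hg hu hx, Ta, Tb]
  simp only [smul_apply, smul_eq_mul] at h5
  linarith

end Crest.Agent.N222.J

namespace Crest.Agent.N222.J

theorem grad_centre : FamStmt fun _ _ _ x0 g u => ∃ C : ℝ, ∀ i, cW (g i) (u i) (x0 i) ≤ C := by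
  intro n ι P _ _ _ Φ I K a b lo hi r x0 g β c u hΦ hK hab h
  have hr := h.r_pos
  obtain ⟨κ, hκ, Hκ⟩ := hΦ.kappa hK hab
  let Z : E n → ℝ := fun y => 1 - ‖y‖ ^ 2 / (r / 2) ^ 2
  have hZ : ContDiff ℝ ∞ Z := contDiff_const.sub ((contDiff_norm_sq ℝ).div_const _)
  let ζ : ι → E n → ℝ := fun i y => Z (y - x0 i)
  have hζ : ∀ i, ContDiff ℝ ∞ (ζ i) := fun i => hZ.comp (contDiff_id.sub contDiff_const)
  have lζ : LK 1 (Bl x0 r) 2 ζ := (LB.translate hZ x0 r).lk one_pos le_rfl 2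
  have bD := h.bd_dΦ hΦ hK hab
  have bw := h.bd_wv
  have bz1 : ∀ l, Bd (Bl x0 r) fun i x => d1 (ζ i) x l := fun l => (lζ.pd l).bd
  have bz2 : ∀ j l, Bd (Bl x0 r) fun i x => d2 (ζ i) x j l := fun j l => ((lζ.pd l).pd j).bd
  have bzw : Bd (Bl x0 r) fun i x => fderiv ℝ (ζ i) x (wv (g i) one (u i) x) := lζ.fd.bd.app bw
  have bA : Bd (Bl x0 r) fun i x =>
      Ta (g i) (β i) (c i) (u i) (fderiv ℝ Φ (c i x, u i x, om (g i) (u i) x)) x :=
    (((Bd.sum fun i => Bd.sum fun j => ((h.bd_ric i j).mul (bw.coord i)).mul (bw.coord j)).neg).sub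
      (bD.app (((h.cb.lk one_pos le_rfl 1).fd.bd.app bw).prodMk (Bd.const _)))).add
      (Bd.sum fun j => ((bw.coord j).mul (((h.βb.lk one_pos le_rfl 1).apply j).fd.bd.app bw)).sub
        ((h.bd_β j).mul (Bd.sum fun i => Bd.sum fun l =>
          ((h.bd_chris j i l).mul (bw.coord i)).mul (bw.coord l))))
  have bB : Bd (Bl x0 r) fun i x =>
      Tb (g i) (β i) (u i) (ζ i) (fderiv ℝ Φ (c i x, u i x, om (g i) (u i) x)) x :=
    ((((h.bd_H0 hΦ hK hab).mul bzw).sub ((h.bd_om.mul bzw).mul (bD.app (Bd.const _)))).sub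
      (Bd.sum fun j => (h.bd_β j).mul (Bd.sum fun l => (h.bd_invb j l).mul (bz1 l)))).sub
      (Bd.sum fun i => Bd.sum fun j => (h.bd_invb i j).mul
        ((bz2 i j).sub (Bd.sum fun k => (h.bd_chris k i j).mul (bz1 k))))
  obtain ⟨A, hA0, hA⟩ := bA
  obtain ⟨B, hB0, hB⟩ := bB
  obtain ⟨δ, hδ, hδ1, hδ2⟩ : ∃ δ : ℝ, 0 < δ ∧ δ ≤ 1 / 2 ∧ δ * (A + B + 1) ≤ κ / 2 :=
    ⟨min (1 / 2) (κ / 2 / (A + B + 1)), lt_min (by norm_num) (by positivity), min_le_left _ _,
      (le_div_iff₀ (by positivity)).1 (min_le_right _ _)⟩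
  refine ⟨δ⁻¹, fun i => ?_⟩
  by_contra hh
  have hsub : closedBall (x0 i) (r / 2) ⊆ ball (x0 i) r := closedBall_subset_ball (by linarith)
  have hom : ∀ y ∈ ball (x0 i) r, 0 < om (g i) (u i) y := fun y hy =>
    inv_pos.2 (cW_pos (h.riem i) hy _)
  have h0 : om (g i) (u i) (x0 i) < δ := (inv_lt_comm₀ (cW_pos (h.riem i) (mem_ball_self hr) _)
    hδ).2 (not_le.1 hh)
  obtain ⟨x, hx, hm⟩ := (isCompact_closedBall (x0 i) (r / 2)).exists_isMaxOn
    ⟨x0 i, mem_closedBall_self (by linarith)⟩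
    (f := fun y => δ * ζ i y - om (g i) (u i) y)
    ((continuous_const.mul (hζ i).continuous).continuousOn.sub fun y hy =>
      (contDiffAt_om (h.riem i) (h.us i) (hsub hy)).continuousAt.continuousWithinAt)
  have h1 : δ * ζ i (x0 i) - om (g i) (u i) (x0 i) ≤ δ * ζ i x - om (g i) (u i) x :=
    hm (mem_closedBall_self (by linarith))
  have h2 : ζ i (x0 i) = 1 := by simp [ζ, Z]
  have h3 : ζ i x = 1 - ‖x - x0 i‖ ^ 2 / (r / 2) ^ 2 := rfl
  have h4 := hom x (hsub hx)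
  have h5 : 0 < ζ i x := by
    by_contra h6
    nlinarith [mul_nonneg hδ.le (neg_nonneg.2 (not_lt.1 h6))]
  have h6 : ζ i x ≤ 1 := by rw [h3]; exact sub_le_self _ (by positivity)
  have h7 : x ∈ ball (x0 i) (r / 2) := by
    rw [h3, sub_pos, div_lt_one (by positivity)] at h5
    exact mem_ball_iff_norm.2 (lt_of_pow_lt_pow_left₀ 2 (by linarith) h5)
  have h8 : om (g i) (u i) x < δ := by nlinarith
  have h9 := grad_pt (h.riem i) (h.us i) (h.βb.1 i) (h.cb.1 i) (hsub hx)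
    ((hΦ.at _ (hab (h.uI i x (hsub hx))) _).differentiableAt (by simp)) (h.H0_eq i)
    ((hζ i).contDiffAt.of_le (by norm_cast))
    (hm.isLocalMax (mem_of_superset (isOpen_ball.mem_nhds h7) ball_subset_closedBall))
  have k1 := Hκ _ (h.state i x (hsub hx))
  have k2 := (abs_le.1 (hA i x (hsub hx))).2
  have k3 := (abs_le.1 (hB i x (hsub hx))).2
  have k4 : 3 / 4 ≤ 1 - om (g i) (u i) x ^ 2 := by nlinarith
  have k5 := mul_le_mul k4 k1 hκ.le (by linarith)
  have k6 := mul_le_mul_of_nonneg_left k2 h4.le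
  have k7 := mul_le_mul_of_nonneg_left k3 hδ.le
  have k8 := mul_le_mul_of_nonneg_right h8.le hA0
  nlinarith

theorem gradEst : GradStmt := by
  intro n ι P _ _ _ Φ I K a b lo hi r x0 g β c u hΦ hK hab h
  obtain ⟨C, hC⟩ := grad_centre n (Σ i : ι, ball (x0 i) (r / 2)) P Φ I K a b lo hi (r / 2)
    (fun j => j.2) _ _ _ _ hΦ hK hab (h.recentre (fun j => j.1) (half_pos h.r_pos) fun j =>
      ball_subset_ball' (by linarith [mem_ball.1 j.2.2]))
  exact ⟨C, fun i x hx => hC ⟨i, x, hx⟩⟩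

end Crest.Agent.N222.J
end
end

-- ▼ part N222/J/Hol
section

/-!
# Row 222, toolbox J (helper41): `C^{1,α}` estimate, higher order estimates, `EstStmt`
-/

set_option autoImplicit false

open Set Filter Topology Metric
open scoped ContDiff RealInnerProductSpace Gradient
open Crest.GeometryTopology.CoordMetric Crest.MathPhysics.ExteriorData
open Crest.Agent.R202.Tens Crest.Agent.R247.Bo84 Crest.Agent.N346.Id
open Crest.Agent.R238 (Ell)
open Crest.Agent.R273.SchA_152 (HO)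
open Crest.Agent.NLib.Ell (CKA dvg mv)

noncomputable section

namespace Crest.Agent.N222.J

variable {n : ℕ}

theorem ell_add_outer {lo hi M : ℝ} {A : Matrix (Fin n) (Fin n) ℝ} (h : Ell lo hi A)
    {p : Fin n → ℝ} (hp : ∀ i, |p i| ≤ M) :
    Ell lo (hi + n * M ^ 2) (A + Matrix.vecMulVec p p) := by
  refine ⟨fun i j => by simp [Matrix.vecMulVec_apply, h.1 i j, mul_comm], fun z => ?_⟩
  have e : ∑ i, ∑ j, (A + Matrix.vecMulVec p p) i j * z i * z j =
      ∑ i, ∑ j, A i j * z i * z j + (∑ i, p i * z i) ^ 2 := by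
    rw [pow_two, Finset.sum_mul_sum, ← Finset.sum_add_distrib]
    refine Finset.sum_congr rfl fun i _ => ?_
    rw [← Finset.sum_add_distrib]
    refine Finset.sum_congr rfl fun j _ => ?_
    rw [Matrix.add_apply, Matrix.vecMulVec_apply]; ring
  have h1 := Finset.sum_mul_sq_le_sq_mul_sq Finset.univ p z
  have h2 : ∑ i, p i ^ 2 ≤ n * M ^ 2 := by
    simpa using Finset.sum_le_sum fun i (_ : i ∈ Finset.univ) =>
      show p i ^ 2 ≤ M ^ 2 from sq_le_sq' (abs_le.1 (hp i)).1 (abs_le.1 (hp i)).2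
  have h3 := mul_le_mul_of_nonneg_right h2
    (Finset.sum_nonneg fun i (_ : i ∈ Finset.univ) => sq_nonneg (z i))
  rw [e]
  exact ⟨by linarith [(h.2 z).1, sq_nonneg (∑ i, p i * z i)], by linarith [(h.2 z).2]⟩

theorem ell_smul {lo hi s : ℝ} {A : Matrix (Fin n) (Fin n) ℝ} (h : Ell lo hi A) (hs : 0 ≤ s) :
    Ell (s * lo) (s * hi) (s • A) := by
  refine ⟨fun i j => by simp [h.1 i j], fun z => ?_⟩
  have e : ∑ i, ∑ j, (s • A) i j * z i * z j = s * ∑ i, ∑ j, A i j * z i * z j := by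
    simp only [Matrix.smul_apply, smul_eq_mul, Finset.mul_sum, mul_assoc]
  rw [e, mul_assoc, mul_assoc]
  exact ⟨mul_le_mul_of_nonneg_left (h.2 z).1 hs, mul_le_mul_of_nonneg_left (h.2 z).2 hs⟩

section Pt

variable {g : MetricField n} {u : E n → ℝ} {U : Set (E n)} {x : E n}

theorem pd_comm {f : E n → ℝ} (hf : ContDiffAt ℝ 2 f x) (i j : Fin n) :
    pderiv i (pderiv j f) x = pderiv j (pderiv i f) x := by
  have hd : DifferentiableAt ℝ (fderiv ℝ f) x :=
    (hf.fderiv_right (m := 1) (by norm_num)).differentiableAt (by norm_num)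
  have h1 : ∀ i j : Fin n, pderiv i (pderiv j f) x = fderiv ℝ (fderiv ℝ f) x
      (EuclideanSpace.single i 1) (EuclideanSpace.single j 1) := fun i j => by
    change fderiv ℝ (fun y => fderiv ℝ f y (EuclideanSpace.single j 1)) x _ = _
    rw [fderiv_clm_apply hd (differentiableAt_const _)]
    simp
  rw [h1, h1, fderiv2_symm hf]

/-- the densitised field `√g X` -/
def flx (g : MetricField n) (u : E n → ℝ) (i : Fin n) (y : E n) : ℝ :=
  √(g y).det * wv g one u y i

theorem c_flx (hg : IsRiemannianOn g U) (hu : ContDiffOn ℝ ∞ u U) (hx : x ∈ U) (i : Fin n) :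
    ContDiffAt ℝ ∞ (flx g u i) x :=
  (contDiffAt_sqrt_det hg hx).mul (contDiffAt_euclidean.1 ((jd hg hu).c_wv hx) i)

theorem sum_flx (hg : IsRiemannianOn g U) (hx : x ∈ U) :
    ∑ i, pderiv i (flx g u i) x = √(g x).det * divg g (wv g one u) x := by
  have := Real.sqrt_pos.2 (det_pos hg hx)
  rw [divg, ← mul_assoc, mul_one_div_cancel this.ne', one_mul]; rfl

/-- the flux of the differentiated equation -/
def flF (g : MetricField n) (u : E n → ℝ) (k : Fin n) (y : E n) : E n :=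
  WithLp.toLp 2 fun i => pderiv k (flx g u i) y - if i = k then ∑ j, pderiv j (flx g u j) y else 0

theorem c_flF (hg : IsRiemannianOn g U) (hu : ContDiffOn ℝ ∞ u U) (hx : x ∈ U) (k : Fin n) :
    ContDiffAt ℝ ∞ (flF g u k) x := by
  refine contDiffAt_toLp fun i => (contDiffAt_pderiv (c_flx hg hu hx i) (by simp) k).sub ?_
  split_ifs
  · exact ContDiffAt.sum fun j _ => contDiffAt_pderiv (c_flx hg hu hx j) (by simp) j
  · exact contDiffAt_const

theorem dvg_flF (hg : IsRiemannianOn g U) (hu : ContDiffOn ℝ ∞ u U) (hx : x ∈ U) (k : Fin n) :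
    dvg (flF g u k) x = 0 := by
  have d1 : ∀ i j, DifferentiableAt ℝ (pderiv j (flx g u i)) x := fun i j =>
    (contDiffAt_pderiv (m := ∞) (c_flx hg hu hx i) (by simp) j).differentiableAt (by simp)
  have h1 : ∀ i, fderiv ℝ (fun y => flF g u k y i) x (EuclideanSpace.single i 1) =
      pderiv i (pderiv k (flx g u i)) x
        - if i = k then ∑ j, pderiv k (pderiv j (flx g u j)) x else 0 := by
    intro i
    simp only [flF]
    split_ifs with h
    · subst h
      rw [fderiv_fun_sub (d1 _ _) (DifferentiableAt.fun_sum fun j _ => d1 j j),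
        fderiv_fun_sum fun j _ => d1 j j]
      simp only [sub_apply, sum_apply]; rfl
    · simp only [sub_zero]; rfl
  simp only [dvg, h1, Finset.sum_sub_distrib, Finset.sum_ite_eq', Finset.mem_univ, if_true]
  rw [sub_eq_zero]
  exact Finset.sum_congr rfl fun i _ => pd_comm ((c_flx hg hu hx i).of_le (by norm_cast)) i k

/-- the bounded part of the flux -/
def flR (g : MetricField n) (u : E n → ℝ) (k : Fin n) (y : E n) (i : Fin n) : ℝ :=
  pderiv k (fun z => √(g z).det) y * wv g one u y i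
    - √(g y).det * ((cW g u y)⁻¹ * ∑ j, inverseField (N346.Id.gb g one u) y i j *
        ∑ l, christoffel g y l j k * d1 u y l
      + ∑ j, christoffel g y i k j * wv g one u y j)
    - if i = k then √(g y).det * H0 g one u y else 0

theorem flF_eq (hg : IsRiemannianOn g U) (hu : ContDiffOn ℝ ∞ u U) (hx : x ∈ U) (k : Fin n) :
    flF g u k x = mv ((√(g x).det * (cW g u x)⁻¹) • jA (g x) (d1 u x)) (∇ (pderiv k u) x)
      + WithLp.toLp 2 (flR g u k x) := by
  have hd := jd hg hu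
  have dw := ((hd.c_wv hx).differentiableAt (by simp)).hasFDerivAt
  ext i
  have dwi := (EuclideanSpace.proj i : E n →L[ℝ] ℝ).hasFDerivAt.comp x dw
  have ds := ((contDiffAt_sqrt_det hg hx).differentiableAt (by simp)).hasFDerivAt
  have h1 : pderiv k (flx g u i) x = √(g x).det * fderiv ℝ (wv g one u) x (ee k) i
      + wv g one u x i * pderiv k (fun z => √(g z).det) x :=
    congrArg (fun L : E n →L[ℝ] ℝ => L (ee k)) (ds.mul dwi).fderiv
  have h2 : fderiv ℝ (wv g one u) x (ee k) i =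
      (cW g u x)⁻¹ * ∑ j, inverseField (N346.Id.gb g one u) x i j *
        (d2 u x j k - ∑ l, christoffel g x l j k * d1 u x l)
      - ∑ j, christoffel g x i k j * wv g one u x j := by
    have h3 := congrArg (fun L : E n →L[ℝ] E n => L (ee k) i) (hd.cov_wv hx)
    simp only [cov_apply, Vv_one, sub_apply, ContinuousLinearMap.smulRight_apply, smul_zero,
      sub_zero, PiLp.add_apply, Gam_apply, shp, mat_ee, Matrix.mul_apply] at h3
    have h4 : ∑ a, ∑ j, christoffel g x i a j * (ee k : E n) a * wv g one u x j =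
        ∑ j, christoffel g x i k j * wv g one u x j := by
      rw [Finset.sum_eq_single k (fun a _ ha => by simp [ee, ha]) (by simp)]
      simp [ee]
    rw [h4] at h3
    rw [eq_sub_iff_add_eq, h3, Finset.mul_sum]
    refine Finset.sum_congr rfl fun j _ => ?_
    rw [← hessM_eq g (hd.cf2 hx), hh, Matrix.of_apply, gm_one, inverseField]
    simp only [pderiv, fderiv_fun_const, Pi.zero_apply, zero_apply]
    ring
  simp only [flF, flR, mv, PiLp.add_apply, Matrix.smul_apply, smul_eq_mul,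
    NLib.Ell.gradient_apply]
  rw [h1, h2, sum_flx hg hx, hd.divg_wv hx, aa_one, mul_zero, sub_zero, ← inv_gb_one]
  simp only [mul_sub, Finset.sum_sub_distrib, mul_assoc, ← Finset.mul_sum]
  have : ∀ j, fderiv ℝ (pderiv k u) x (EuclideanSpace.single j 1) = d2 u x j k := fun j => rfl
  simp only [this]
  ring

end Pt

namespace Fam

variable {ι P : Type} [NormedAddCommGroup P] [NormedSpace ℝ P] {Φ : P × ℝ × ℝ → ℝ} {I : Set ℝ}
  {K : Set P} {a b lo hi r : ℝ} {x0 : ι → E n} {γ : ι → MetricField n}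
  {β : ι → E n → Fin n → ℝ} {c : ι → E n → P} {u : ι → E n → ℝ}

theorem bd_d1 (h : Fam Φ K a b lo hi r x0 γ β c u) {C : ℝ}
    (hC : ∀ i, ∀ x ∈ ball (x0 i) r, cW (γ i) (u i) x ≤ C) (j : Fin n) :
    Bd (Bl x0 r) fun i x => d1 (u i) x j := by
  have hW : Bd (Bl x0 r) fun i x => cW (γ i) (u i) x := Bd.of_le (C := C) fun i x hx => by
    rw [Real.norm_eq_abs, abs_of_pos (cW_pos (h.riem i) hx _)]; exact hC i x hx
  refine (hW.mul (Bd.sum fun l => (h.lkg 0 l j).bd.mul (h.bd_wv.coord l))).congr fun i x hx => ?_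
  have h1 := (h.jd' i).phi_df hx (ee j)
  rw [one_mul, gm_one, bil_apply] at h1
  refine h1.trans ?_
  congr 1
  refine Finset.sum_congr rfl fun l _ => ?_
  rw [Finset.sum_eq_single j (fun a _ ha => by simp [ee, ha]) (by simp)]
  simp [ee]

theorem ell_jA (h : Fam Φ K a b lo hi r x0 γ β c u)
    (hd : ∀ j, Bd (Bl x0 r) fun i x => d1 (u i) x j) : ∃ H, lo ≤ H ∧ ∀ i, ∀ x ∈ ball (x0 i) r,
      Ell lo H (γ i x + Matrix.vecMulVec (d1 (u i) x) (d1 (u i) x)) ∧
      Ell (1 / H) (1 / lo) (jA (γ i x) (d1 (u i) x)) := by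
  choose M _ hM using hd
  obtain ⟨B, hB⟩ := (Set.finite_range M).bddAbove
  refine ⟨max lo (hi + n * B ^ 2), le_max_left _ _, fun i x hx => ?_⟩
  have h1 := (ell_add_outer (h.ell i x hx) fun j => (hM j i x hx).trans (hB ⟨j, rfl⟩)).sm_mono
    le_rfl (le_max_right lo _)
  exact ⟨h1, h1.sm_inv h.lo_pos (le_max_left _ _)⟩

end Fam

theorem hol (h0 : Hol0Stmt) : HolStmt := by
  intro n ι P _ _ _ Φ I K a b lo hi r x0 g β c u hΦ hK hab h ⟨C, hC⟩
  have hlo := h.lo_pos
  have bd := h.bd_d1 hC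
  obtain ⟨H, hH, hA⟩ := h.ell_jA bd
  obtain ⟨c0, hc0, hdet⟩ := LK.det_ge hlo (h.lkg 0) h.ell
  have ls := LK.sqrt_det one_pos le_rfl hlo (h.lkg 1) h.ell
  have bw := h.bd_wv
  have bR : ∀ k j, Bd (Bl x0 r) fun i x => flR (g i) (u i) k x j := fun k j => by
    refine (((ls.pd k).bd.mul (bw.coord j)).sub (ls.bd.mul ((h.bd_om.mul (Bd.sum fun l =>
      (h.bd_invb j l).mul (Bd.sum fun m => (h.bd_chris m l k).mul (bd m)))).add
      (Bd.sum fun l => (h.bd_chris j k l).mul (bw.coord l))))).sub ?_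
    split_ifs
    · exact ls.bd.mul (h.bd_H0 hΦ hK hab)
    · exact Bd.const _
  have bR' : Bd (Bl x0 r) fun i x => ∑ k, ∑ j, ‖flR (g i) (u i) k x j‖ :=
    Bd.sum fun k => Bd.sum fun j => (bR k j).mono fun _ _ _ => (norm_norm _).le
  obtain ⟨R, hR0, hR⟩ := bR'
  have hR' : ∀ i, ∀ x ∈ ball (x0 i) r, ∀ k,
      ‖(WithLp.toLp 2 (flR (g i) (u i) k x) : E n)‖ ≤ R := fun i x hx k => by
    refine le_trans ?_ ((le_abs_self _).trans (hR i x hx))
    refine le_trans ?_ (Finset.single_le_sum (f := fun k => ∑ j, ‖flR (g i) (u i) k x j‖)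
      (fun k _ => Finset.sum_nonneg fun j _ => norm_nonneg _) (Finset.mem_univ k))
    rw [EuclideanSpace.norm_eq, Real.sqrt_le_left (Finset.sum_nonneg fun j _ => norm_nonneg _)]
    exact Finset.sum_sq_le_sq_sum_of_nonneg fun j _ => norm_nonneg _
  obtain ⟨S, hS0, hS⟩ := ls.bd
  obtain ⟨D, hD0, hD⟩ := (Bd.sum fun k => (bd k).mono (w := fun i x => |d1 (u i) x k|)
    fun _ _ _ => (abs_abs _).le)
  have hD' : ∀ i, ∀ x ∈ ball (x0 i) r, ∀ k, |pderiv k (u i) x| ≤ D := fun i x hx k =>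
    (Finset.single_le_sum (f := fun k => |d1 (u i) x k|) (fun k _ => abs_nonneg _)
      (Finset.mem_univ k)).trans ((le_abs_self _).trans (hD i x hx))
  set C' := max C 1
  have hC' : 0 < C' := one_pos.trans_le (le_max_right _ _)
  have hH0 : 0 < H := hlo.trans_le hH
  set l1 := √c0 * C'⁻¹ * (1 / H)
  have hl1 : 0 < l1 := by positivity
  set L := (S + 1) * (1 / lo) + R + R ^ 2 / (2 * l1) + D
  have hEll : ∀ i, ∀ x ∈ ball (x0 i) r, Ell l1 ((S + 1) * (1 / lo))
      ((√(g i x).det * (cW (g i) (u i) x)⁻¹) • jA (g i x) (d1 (u i) x)) := fun i x hx => by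
    have h1 := cW_inv_mem (h.riem i) hx (u i)
    have h2 : C'⁻¹ ≤ (cW (g i) (u i) x)⁻¹ :=
      inv_anti₀ (cW_pos (h.riem i) hx _) ((hC i x hx).trans (le_max_left _ _))
    have h3 := (le_abs_self _).trans (hS i x hx)
    refine (ell_smul (hA i x hx).2 (mul_nonneg (Real.sqrt_nonneg _) h1.1)).sm_mono ?_ ?_
    · have := Real.sqrt_le_sqrt (hdet i x hx)
      simp only [l1]; gcongr
    · refine mul_le_mul_of_nonneg_right ?_ (by positivity)
      nlinarith [mul_le_mul_of_nonneg_left h1.2 (Real.sqrt_nonneg (g i x).det)]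
  obtain ⟨α, M, hα, hα1, HH⟩ := h0 n (l1 / 2) L r (by positivity) h.r_pos
  have k1 : 0 ≤ (S + 1) * (1 / lo) := by positivity
  have k2 : 0 ≤ R ^ 2 / (2 * l1) := by positivity
  have key : ∀ i k, HO α M (ball (x0 i) (r / 2)) (pderiv k (u i)) := fun i k => by
    refine HH (x0 i) _ (flF (g i) (u i) k) (fun x hx => ((contDiffAt_pderiv (m := ∞)
        ((h.jd' i).cf hx) (by simp) k).of_le (by norm_cast)).contDiffWithinAt)
      (fun x hx => ((c_flF (h.riem i) (h.us i) hx k).of_le (by norm_cast)).contDiffWithinAt)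
      (fun x hx => (hD' i x hx k).trans (by simp only [L]; linarith)) (fun x hx => ?_)
      (fun x hx => ?_) fun x hx => dvg_flF (h.riem i) (h.us i) hx k
    · rw [flF_eq (h.riem i) (h.us i) hx, inner_add_left]
      have h1 := NLib.Ell.low_mv (hEll i x hx) (∇ (pderiv k (u i)) x)
      have h2 := (neg_le_neg ((abs_real_inner_le_norm (WithLp.toLp 2 (flR (g i) (u i) k x) : E n)
        (∇ (pderiv k (u i)) x)).trans (mul_le_mul_of_nonneg_right (hR' i x hx k)
          (norm_nonneg _)))).trans (neg_abs_le _)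
      have h3 : R * ‖∇ (pderiv k (u i)) x‖ ≤ l1 / 2 * ‖∇ (pderiv k (u i)) x‖ ^ 2
          + R ^ 2 / (2 * l1) := by
        have : 0 ≤ (l1 * ‖∇ (pderiv k (u i)) x‖ - R) ^ 2 / (2 * l1) := by positivity
        refine le_of_sub_nonneg (this.trans_eq ?_)
        field_simp; ring
      simp only [L]; linarith
    · rw [flF_eq (h.riem i) (h.us i) hx]
      have h1 := NLib.Ell.up_mv (hEll i x hx) hl1.le (by positivity) (∇ (pderiv k (u i)) x)
      refine (norm_add_le _ _).trans (add_le_add (h1.trans ?_) ((hR' i x hx k).trans ?_))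
      · exact mul_le_mul_of_nonneg_right (by simp only [L]; linarith) (norm_nonneg _)
      · simp only [L]; linarith
  obtain ⟨C0, -, hdict⟩ := NLib.Ell.ckaDict n 0 α hα hα1.le
  have hsub : ∀ i, ball (x0 i) (r / 2) ⊆ ball (x0 i) r := fun i =>
    ball_subset_ball (half_le_self h.r_pos.le)
  have key0 : ∀ i, HO α (C0 * max (max |a| |b|) (n * D)) (ball (x0 i) (r / 2)) (u i) := fun i => by
    refine (hdict ℝ _ (u i) _ isOpen_ball).2.2 (convex_ball _ _)
      (((h.us i).mono (hsub i)).of_le (by exact_mod_cast le_top)) fun j hj x hx => ?_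
    interval_cases j
    · rw [norm_iteratedFDeriv_zero]
      exact (abs_le_max_abs_abs (h.uI i x (hsub i hx)).1 (h.uI i x (hsub i hx)).2).trans
        (le_max_left _ _)
    · rw [norm_iteratedFDeriv_one]
      refine le_trans ?_ (le_max_right _ _)
      refine ContinuousLinearMap.opNorm_le_bound _ (by positivity) fun Y => ?_
      rw [clm_eq_sum]
      refine (norm_sum_le _ _).trans ((Finset.sum_le_sum (g := fun _ => D * ‖Y‖)
        fun k _ => ?_).trans (by simp [mul_assoc]))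
      rw [norm_mul, mul_comm]
      exact mul_le_mul (hD' i x (hsub i hx) k) (PiLp.norm_apply_le Y k) (norm_nonneg _) hD0
  exact ⟨α, hα, hα1, max M (C0 * max (max |a| |b|) (n * D)), fun i =>
    ⟨(key0 i).mono (le_max_right _ _), ((h.us i).mono (hsub i)).differentiableOn (by simp),
      fun k => (key i k).mono (le_max_left _ _)⟩⟩

theorem up (hB : BootStmt) : UpStmt := by
  intro n ι P _ _ _ Φ I K a b lo hi r x0 g β c u hΦ hK hab h α hα hα1 hu
  have hlo := h.lo_pos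
  obtain ⟨H, hH, hA⟩ := h.ell_jA fun j => (hu.pd j).bd
  refine hB n ι α (1 / H) (1 / lo) r x0 (fun i x => jA (g i x) (d1 (u i) x)) u
    (fun i x => cW (g i) (u i) x * Φ (c i x, u i x, (cW (g i) (u i) x)⁻¹)
      - ∑ j, β i x j * ∑ l, (g i x)⁻¹ j l * d1 (u i) x l
      + ∑ j, ∑ l, jA (g i x) (d1 (u i) x) j l * ∑ k, christoffel (g i) x k j l * d1 (u i) x k)
    hα hα1 (one_div_pos.2 (hlo.trans_le hH)) h.r_pos h.us (fun i x hx => (hA i x hx).2)
    (fun i x hx => ?_) (fun k s _ hs hk => ?_) hu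
  · rw [← h.eq i x hx, nd n _ _ _ _ (h.riem i) (h.us i) x hx, jQ, ← cW_eq,
      mul_div_cancel₀ _ (cW_pos (h.riem i) hx _).ne']
    simp only [mul_sub, Finset.sum_sub_distrib]
    ring
  · have sb : ∀ i, ball (x0 i) s ⊆ ball (x0 i) r := fun i => ball_subset_ball hs
    have lg : ∀ m j l, LK α (Bl x0 s) m fun i x => g i x j l := fun m j l =>
      ((h.gb j l).shrink hs).lk hα hα1.le m
    have he : ∀ i, ∀ x ∈ ball (x0 i) s, Ell lo hi (g i x) := fun i x hx => h.ell i x (sb i hx)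
    have lp : ∀ j, LK α (Bl x0 s) k fun i x => d1 (u i) x j := fun j => hk.pd j
    have li := LK.matInv hα hα1.le hlo (lg k) he
    have lA : ∀ j l, LK α (Bl x0 s) k fun i x => jA (g i x) (d1 (u i) x) j l :=
      LK.matInv (A := fun i x => g i x + Matrix.vecMulVec (d1 (u i) x) (d1 (u i) x)) hα hα1.le hlo
        (fun j l => (lg k j l).add ((lp j).mul (lp l))) fun i x hx => (hA i x (sb i hx)).1
    have lW : LK α (Bl x0 s) k fun i x => cW (g i) (u i) x :=
      LK.sqrt (u := fun i x => 1 + gam (g i) (u i) (u i) x) hα hα1.le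
        ((LK.const 1).add (LK.sum fun j => LK.sum fun l => ((li j l).mul (lp j)).mul (lp l)))
        one_pos fun i x hx => le_add_of_nonneg_right (gam_self_nonneg (h.riem i) (sb i hx) _)
    have lo' := lW.inv hα hα1.le one_pos fun i x hx => one_le_cW (h.riem i) (sb i hx) _
    have lΦ := LK.comp hα hα1.le hΦ.isOpen' (hK.prod (isCompact_Icc.prod isCompact_Icc))
      (fun z hz => ⟨mem_univ _, hab hz.2.1, mem_univ _⟩) hΦ.sm
      (((h.cb.shrink hs).lk hα hα1.le k).prodMk (hk.pred.prodMk lo'))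
      fun i x hx => h.state i x (sb i hx)
    exact ⟨lA, ((lW.mul lΦ).sub (LK.sum fun j => (((h.βb.shrink hs).lk hα hα1.le k).apply j).mul
      (LK.sum fun l => (li j l).mul (lp l)))).add (LK.sum fun j => LK.sum fun l => (lA j l).mul
        (LK.sum fun m => (LK.chris hα hα1.le hlo (lg (k + 1)) he m j l).mul (lp m)))⟩

theorem est (hG : GradStmt) (hH : HolStmt) (hU : UpStmt) : EstStmt := by
  intro n ι P _ _ _ Φ I K a b lo hi r x0 g β c u hΦ hK hab h
  have hr := h.r_pos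
  have h1 := h.recentre (κ := Σ i : ι, ball (x0 i) (r / 2)) (fun j => j.1) (y0 := fun j => j.2)
    (half_pos hr) fun j => ball_subset_ball' (by linarith [mem_ball.1 j.2.2])
  have h2 := h1.recentre id (s := r / 2 / 2) (by positivity)
    fun j => ball_subset_ball (by linarith)
  have h3 := h1.recentre id (s := r / 2 / 2 / 2) (by positivity)
    fun j => ball_subset_ball (by linarith)
  obtain ⟨α, hα, hα1, hL⟩ := hH n _ P Φ I K a b lo hi _ _ _ _ _ _ hΦ hK hab h2
    (hG n _ P Φ I K a b lo hi _ _ _ _ _ _ hΦ hK hab h1)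
  refine ⟨fun i => (h.us i).mono (ball_subset_ball (by linarith)), fun k => ?_⟩
  obtain ⟨C, hC⟩ := hU n _ P Φ I K a b lo hi _ _ _ _ _ _ hΦ hK hab h3 α hα hα1 hL k
  exact ⟨C, fun i x hx => hC ⟨i, x, hx⟩⟩

end Crest.Agent.N222.J
end
end

-- ▼ part N222/J/Hol0
section

/-! # Row 222, toolbox J: the De Giorgi-Nash Hölder estimate (helper64) -/

set_option autoImplicit false

open Set Filter Topology Metric MeasureTheory
open scoped ContDiff RealInnerProductSpace Gradient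
open Crest.Agent.R273.SchA_152 (HO)
open Crest.Agent.NLib.Ell

noncomputable section

namespace Crest.Agent.N222.J

namespace H0

variable {n : ℕ}

/-- the statement in one dimension -/
def Hol (n : ℕ) : Prop := ∀ (lam Lam r : ℝ), 0 < lam → 0 < r → ∃ α C : ℝ, 0 < α ∧ α < 1 ∧
  ∀ (x0 : E n) (w : E n → ℝ) (F : E n → E n), ContDiffOn ℝ 1 w (ball x0 r) →
    ContDiffOn ℝ 1 F (ball x0 r) → (∀ x ∈ ball x0 r, |w x| ≤ Lam) →
    (∀ x ∈ ball x0 r, lam * ‖∇ w x‖ ^ 2 - Lam ≤ ⟪F x, ∇ w x⟫) →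
    (∀ x ∈ ball x0 r, ‖F x‖ ≤ Lam * ‖∇ w x‖ + Lam) → (∀ x ∈ ball x0 r, dvg F x = 0) →
    HO α C (ball x0 (r / 2)) w

theorem sub_of {lam Lam : ℝ} {U : Set (E n)} (hU : IsOpen U) {w : E n → ℝ} {F : E n → E n}
    (hw : ContDiffOn ℝ 1 w U) (hF : ContDiffOn ℝ 1 F U)
    (low : ∀ x ∈ U, lam * ‖∇ w x‖ ^ 2 - Lam ≤ ⟪F x, ∇ w x⟫)
    (up : ∀ x ∈ U, ‖F x‖ ≤ Lam * ‖∇ w x‖ + Lam) (hd : ∀ x ∈ U, dvg F x = 0) :
    Sub lam Lam (|Lam| + 1) 0 U w (fun _ => 1) F where
  cu := hw
  cm := continuousOn_const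
  cF := hF.continuousOn
  m0 _ _ := zero_le_one
  low x hx := by nlinarith [low x hx, le_abs_self Lam, abs_nonneg Lam]
  up x hx := by linarith [up x hx, le_abs_self Lam]
  weak φ hφ := by
    have := weak_of_div_le hU hF (G := fun _ => |Lam| + 1) continuousOn_const
      (fun x hx => by rw [hd x hx, neg_zero]; positivity) hφ
    simpa using this

/-- the values of `w` on a ball lie in an interval of length `os` -/
def Osc (w : E n → ℝ) (y : E n) (ρ os : ℝ) : Prop := ∃ m, ∀ x ∈ ball y ρ, m ≤ w x ∧ w x ≤ m + os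

theorem Osc.mono {w : E n → ℝ} {y : E n} {ρ os os' : ℝ} (h : Osc w y ρ os) (h' : os ≤ os') :
    Osc w y ρ os' := by
  obtain ⟨m, hm⟩ := h
  exact ⟨m, fun x hx => ⟨(hm x hx).1, by linarith [(hm x hx).2]⟩⟩

theorem Osc.norm_le {w : E n → ℝ} {y x : E n} {ρ os : ℝ} (h : Osc w y ρ os) (hx : x ∈ ball y ρ) :
    ‖w x - w y‖ ≤ os := by
  obtain ⟨m, hm⟩ := h
  have h1 := hm x hx
  have h2 := hm y (mem_ball_self (pos_of_mem_ball hx))
  rw [Real.norm_eq_abs, abs_le]
  constructor <;> linarith [h1.1, h1.2, h2.1, h2.2]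

/-- decay of the oscillation -/
theorem decay (hn : 3 ≤ n) {lam : ℝ} (hlam : 0 < lam) (Lam : ℝ) {a : ℝ} (ha : 0 ≤ a) :
    ∃ γ : ℝ, 1 / 2 ≤ γ ∧ γ < 1 ∧ ∀ (w : E n → ℝ) (F : E n → E n) (y : E n) (ρ os : ℝ), 0 < ρ →
      ρ ≤ 1 → Sub lam Lam a 0 (ball y (4 * ρ)) w (fun _ => 1) F →
      Sub lam Lam a 0 (ball y (4 * ρ)) (fun x => -w x) (fun _ => 1) (fun x => -F x) →
      Osc w y (4 * ρ) os → Osc w y ρ (γ * os + ρ) := by
  have hv : 0 < volume.real (ball (0 : E n) 2) :=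
    ENNReal.toReal_pos (measure_ball_pos _ _ two_pos).ne' measure_ball_lt_top.ne
  obtain ⟨c, hc, hc1, H⟩ := growth hn hlam Lam ha le_rfl (half_pos hv)
  refine ⟨1 - c / 2, by linarith, by linarith, fun w F y ρ os hρ hρ1 h1 h2 ⟨m, hm⟩ => ?_⟩
  have hvol : volume.real (ball (0 : E n) 2) * ρ ^ n = volume.real (ball y (2 * ρ)) := by
    have := volume_aff y hρ (S := ball y (2 * ρ)) measurableSet_ball
    rw [preimage_aff_ball y hρ] at this
    rw [this]; field_simp
  have hfin : ∀ S : Set (E n), volume (ball y (2 * ρ) ∩ S) ≠ ⊤ := fun S =>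
    ((measure_mono inter_subset_left).trans_lt measure_ball_lt_top).ne
  have hcov : volume.real (ball y (2 * ρ)) ≤
      volume.real (ball y (2 * ρ) ∩ {x | os / 2 ≤ w x - m}) +
        volume.real (ball y (2 * ρ) ∩ {x | os / 2 ≤ m + os - w x}) := by
    refine (measureReal_mono (fun x hx => ?_) (measure_union_ne_top (hfin _) (hfin _))).trans
      (measureReal_union_le _ _)
    rcases le_total (os / 2) (w x - m) with h | h
    · exact Or.inl ⟨hx, h⟩
    · exact Or.inr ⟨hx, by change os / 2 ≤ m + os - w x; linarith⟩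
  have hsub : ball y ρ ⊆ ball y (4 * ρ) := ball_subset_ball (by linarith)
  rcases le_total (volume.real (ball (0 : E n) 2) / 2 * ρ ^ n)
    (volume.real (ball y (2 * ρ) ∩ {x | os / 2 ≤ w x - m})) with h | h
  · have h3 : Sup lam Lam a 0 (ball y (4 * ρ)) (fun x => w x - m) (fun _ => 1) F := by
      have e : (fun x => -(w x - m)) = fun x => -w x + m := funext fun x => by ring
      rw [Sup, e]; exact h2.add_const m
    have h4 := H _ _ F y ρ 1 (os / 2) hρ hρ1 h3 zero_le_one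
      (fun x hx => by linarith [(hm x hx).1]) (fun x hx => by linarith [(hm x hx).1]) h
    exact ⟨m + c * (os / 2) - ρ, fun x hx =>
      ⟨by linarith [h4 x hx], by linarith [(hm x (hsub hx)).2]⟩⟩
  · have h3 : Sup lam Lam a 0 (ball y (4 * ρ)) (fun x => m + os - w x) (fun _ => 1)
        (fun x => -F x) := by
      have e : (fun x => -(m + os - w x)) = fun x => w x + -(m + os) := funext fun x => by ring
      rw [Sup, e]
      simpa only [neg_neg] using h1.add_const (-(m + os))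
    have h4 := H _ _ _ y ρ 1 (os / 2) hρ hρ1 h3 zero_le_one
      (fun x hx => by linarith [(hm x hx).2]) (fun x hx => by linarith [(hm x hx).2])
      (by linarith)
    exact ⟨m, fun x hx => ⟨(hm x (hsub hx)).1, by linarith [h4 x hx]⟩⟩

theorem hol_of_three_le (hn : 3 ≤ n) : Hol n := by
  intro lam Lam r hlam hr
  obtain ⟨γ, hγ, hγ1, H⟩ := decay hn hlam Lam (a := |Lam| + 1) (by positivity)
  have hγ0 : 0 < γ := by linarith
  set R := min (r / 2) 1 with hR
  have hR0 : 0 < R := lt_min (half_pos hr) one_pos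
  have hR1 : R ≤ 1 := min_le_right _ _
  set α := Real.logb (1 / 4) γ with hα
  have hα0 : 0 < α := Real.logb_pos_of_base_lt_one (by norm_num) (by norm_num) hγ0 hγ1
  have hα1 : α < 1 := (Real.logb_lt_iff_lt_rpow_of_base_lt_one (by norm_num) (by norm_num) hγ0).2
    (by rw [Real.rpow_one]; linarith)
  have hαγ : (1 / 4 : ℝ) ^ α = γ := Real.rpow_logb (by norm_num) (by norm_num) hγ0
  set K := 2 * |Lam| + 1 with hK
  have hK0 : 0 < K := by positivity
  have hP : 1 ≤ (2 / R) ^ α := Real.one_le_rpow (by rw [le_div_iff₀ hR0]; linarith) hα0.le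
  refine ⟨α, 2 * K * (2 / R) ^ α, hα0, hα1, fun x0 w F hw hF hb low up hd => ?_⟩
  have hsub : ball x0 (r / 2) ⊆ ball x0 r := ball_subset_ball (by linarith)
  have S1 := sub_of isOpen_ball hw hF low up hd
  have S2 := sub_of (lam := lam) (Lam := Lam) isOpen_ball hw.neg hF.neg
    (fun x hx => by rw [gradient_neg, norm_neg, inner_neg_neg]; exact low x hx)
    (fun x hx => by rw [gradient_neg, norm_neg, norm_neg]; exact up x hx)
    (fun x hx => by rw [dvg_neg, hd x hx, neg_zero])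
  refine ⟨fun x hx => ?_, fun x hx y hy => ?_⟩
  · have := hb x (hsub hx)
    rw [Real.norm_eq_abs]
    nlinarith [le_abs_self Lam, abs_nonneg Lam]
  have hB : ball y R ⊆ ball x0 r := ball_subset_ball' (by
    have := min_le_left (r / 2) 1
    linarith [mem_ball.1 hy])
  have it : ∀ j : ℕ, Osc w y (R * (1 / 4) ^ j) (K * γ ^ j - (1 / 4) ^ j) := fun j => by
    induction j with
    | zero =>
      refine ⟨-|Lam|, fun z hz => ?_⟩
      have h1 := abs_le.1 ((hb z (hB (by simpa using hz))).trans (le_abs_self Lam))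
      constructor
      · exact h1.1
      · simp only [pow_zero]; linarith [h1.2]
    | succ j ih =>
      have h0 : (0 : ℝ) < (1 / 4) ^ j := by positivity
      have h1 : ((1 : ℝ) / 4) ^ j ≤ 1 := pow_le_one₀ (by norm_num) (by norm_num)
      have e : 4 * (R * (1 / 4) ^ (j + 1)) = R * (1 / 4) ^ j := by ring
      have h2 : ball y (4 * (R * (1 / 4) ^ (j + 1))) ⊆ ball x0 r :=
        (ball_subset_ball (by rw [e]; nlinarith)).trans hB
      refine (H w F y (R * (1 / 4) ^ (j + 1)) _ (by positivity) (by nlinarith) (S1.restrict h2)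
        (S2.restrict h2) (e ▸ ih)).mono ?_
      rw [pow_succ, pow_succ]
      nlinarith [mul_le_mul_of_nonneg_right hγ h0.le, mul_le_mul_of_nonneg_right hR1 h0.le]
  have e : 2 * K * (2 / R) ^ α * ‖x - y‖ ^ α = 2 * K * (2 * ‖x - y‖ / R) ^ α := by
    rw [mul_assoc, ← Real.mul_rpow (by positivity) (norm_nonneg _)]
    congr 2; ring
  rw [e]
  rcases (norm_nonneg (x - y)).eq_or_lt with h0 | h0
  · rw [norm_sub_eq_zero_iff.1 h0.symm, sub_self, norm_zero]
    positivity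
  rcases le_total (2 * ‖x - y‖ / R) 1 with h1 | h1
  · obtain ⟨j, h2, h3⟩ := exists_nat_pow_near_of_lt_one (x := 2 * ‖x - y‖ / R) (y := 1 / 4)
      (by positivity) h1 (by norm_num) (by norm_num)
    have h4 : x ∈ ball y (R * (1 / 4) ^ j) := by
      rw [div_le_iff₀ hR0] at h3
      rw [mem_ball_iff_norm]; linarith
    have h5 : γ ^ (j + 1) ≤ (2 * ‖x - y‖ / R) ^ α := by
      rw [← hαγ, Real.rpow_pow_comm (by norm_num)]
      exact Real.rpow_le_rpow (by positivity) h2.le hα0.le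
    have h6 : γ ^ j ≤ 2 * γ ^ (j + 1) := by
      rw [pow_succ]; nlinarith [pow_pos hγ0 j]
    have h7 : (0 : ℝ) < (1 / 4) ^ j := by positivity
    nlinarith [(it j).norm_le h4]
  · have h2 := Real.one_le_rpow h1 hα0.le
    have h3 := abs_le.1 (hb x (hsub hx))
    have h4 := abs_le.1 (hb y (hsub hy))
    have h5 : ‖w x - w y‖ ≤ K := by
      rw [Real.norm_eq_abs, abs_le]
      constructor <;> linarith [h3.1, h3.2, h4.1, h4.2, le_abs_self Lam]
    nlinarith

/-! ### a dummy variable -/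

/-- forget the first coordinate -/
def pr (n : ℕ) : E (n + 1) →L[ℝ] E n :=
  LinearMap.toContinuousLinearMap
    { toFun := fun z => WithLp.toLp 2 fun i => z i.succ
      map_add' := fun _ _ => rfl
      map_smul' := fun _ _ => rfl }

/-- extend by zero -/
def io (n : ℕ) : E n →L[ℝ] E (n + 1) :=
  LinearMap.toContinuousLinearMap
    { toFun := fun z => WithLp.toLp 2 (Fin.cons 0 z.ofLp)
      map_add' := fun _ _ => by
        ext i; exact Fin.cases (add_zero (0 : ℝ)).symm (fun _ => rfl) i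
      map_smul' := fun c _ => by
        ext i; exact Fin.cases (mul_zero c).symm (fun _ => rfl) i }

theorem pr_apply (z : E (n + 1)) (i : Fin n) : pr n z i = z i.succ := rfl
theorem io_zero (z : E n) : io n z 0 = 0 := rfl
theorem io_succ (z : E n) (i : Fin n) : io n z i.succ = z i := rfl
theorem pr_io (z : E n) : pr n (io n z) = z := rfl

theorem inner_io (v : E n) (z : E (n + 1)) : ⟪io n v, z⟫ = ⟪v, pr n z⟫ := by
  rw [inner_eq_sum, inner_eq_sum, Fin.sum_univ_succ, io_zero, zero_mul, zero_add]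
  rfl

theorem norm_io (v : E n) : ‖io n v‖ = ‖v‖ := by
  rw [← sq_eq_sq₀ (norm_nonneg _) (norm_nonneg _), ← real_inner_self_eq_norm_sq, inner_io, pr_io,
    real_inner_self_eq_norm_sq]

theorem norm_pr_le (z : E (n + 1)) : ‖pr n z‖ ≤ ‖z‖ := by
  refine le_of_sq_le_sq ?_ (norm_nonneg _)
  rw [norm_sq_eq_sum, norm_sq_eq_sum, Fin.sum_univ_succ]
  exact le_add_of_nonneg_left (sq_nonneg _)

theorem inner_gradient (w : E n → ℝ) (x h : E n) : ⟪∇ w x, h⟫ = fderiv ℝ w x h :=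
  InnerProductSpace.toDual_symm_apply

theorem gradient_pr {w : E n → ℝ} {z : E (n + 1)} (hw : DifferentiableAt ℝ w (pr n z)) :
    ∇ (fun z => w (pr n z)) z = io n (∇ w (pr n z)) := by
  refine ext_inner_right ℝ fun h => ?_
  rw [inner_io, inner_gradient, inner_gradient]
  exact congrArg (fun T : E (n + 1) →L[ℝ] ℝ => T h)
    (hw.hasFDerivAt.comp z (pr n).hasFDerivAt).fderiv

theorem dvg_pr {F : E n → E n} {z : E (n + 1)} (hF : DifferentiableAt ℝ F (pr n z)) :
    dvg (fun z => io n (F (pr n z))) z = dvg F (pr n z) := by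
  rw [dvg, dvg, Fin.sum_univ_succ]
  simp only [io_zero, io_succ, fderiv_fun_const, Pi.zero_apply, zero_apply,
    zero_add]
  refine Finset.sum_congr rfl fun i _ => ?_
  have h1 := ((differentiableAt_euclidean.1 hF i).hasFDerivAt.comp z (pr n).hasFDerivAt).fderiv
  have h2 : pr n (EuclideanSpace.single i.succ 1) = EuclideanSpace.single i 1 := by
    ext k; simp [pr_apply]
  rw [← h2]
  exact congrArg (fun T : E (n + 1) →L[ℝ] ℝ => T (EuclideanSpace.single i.succ 1)) h1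

theorem Hol.down (h : Hol (n + 1)) : Hol n := by
  intro lam Lam r hlam hr
  obtain ⟨α, C, h0, h1, H⟩ := h lam Lam r hlam hr
  refine ⟨α, C, h0, h1, fun x0 w F hw hF hb low up hd => ?_⟩
  have hm : ∀ z ∈ ball (io n x0) r, pr n z ∈ ball x0 r := fun z hz => by
    rw [mem_ball_iff_norm] at hz ⊢
    have := norm_pr_le (z - io n x0)
    rw [map_sub, pr_io] at this
    linarith
  have hg : ∀ z ∈ ball (io n x0) r, ∇ (fun z => w (pr n z)) z = io n (∇ w (pr n z)) :=
    fun z hz => gradient_pr (diffAt isOpen_ball hw (hm z hz))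
  have h2 := H (io n x0) (fun z => w (pr n z)) (fun z => io n (F (pr n z)))
    (hw.comp (pr n).contDiff.contDiffOn hm)
    ((io n).contDiff.comp_contDiffOn (hF.comp (pr n).contDiff.contDiffOn hm))
    (fun z hz => hb _ (hm z hz))
    (fun z hz => by rw [hg z hz, norm_io, inner_io, pr_io]; exact low _ (hm z hz))
    (fun z hz => by rw [hg z hz, norm_io, norm_io]; exact up _ (hm z hz))
    (fun z hz => by
      rw [dvg_pr ((hF.contDiffAt (isOpen_ball.mem_nhds (hm z hz))).differentiableAt (by simp))]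
      exact hd _ (hm z hz))
  have hi : ∀ x ∈ ball x0 (r / 2), io n x ∈ ball (io n x0) (r / 2) := fun x hx => by
    rwa [mem_ball_iff_norm, ← map_sub, norm_io, ← mem_ball_iff_norm]
  refine ⟨fun x hx => h2.bdd _ (hi x hx), fun x hx y hy => ?_⟩
  have h3 := h2.hol _ (hi x hx) _ (hi y hy)
  rwa [← map_sub, norm_io] at h3

end H0

theorem hol0 : Hol0Stmt := fun n => (H0.hol_of_three_le (n := n + 3) (by omega)).down.down.down

end Crest.Agent.N222.J

end
end

-- ▼ part N222/J/Arz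
section

/-!
# Row 222, toolbox J: local smooth Arzelà-Ascoli and the periodic retraction (helper37)
-/

set_option autoImplicit false

open Set Filter Topology Metric
open scoped ContDiff

noncomputable section

namespace Crest.Agent.N222.J

theorem arz_sub {n : ℕ} {F : Type} [NormedAddCommGroup F] [NormedSpace ℝ F]
    [FiniteDimensional ℝ F] {x0 : E n} {r : ℝ} (hr : 0 < r) {f : ℕ → E n → F}
    (h : LB (Bl (fun _ => x0) r) f) :
    ∃ (ψ : ℕ → ℕ) (g : E n → F), StrictMono ψ ∧ ContDiff ℝ ∞ g ∧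
      (∀ x ∈ ball x0 (r / 2), Tendsto (fun j => f (ψ j) x) atTop (𝓝 (g x))) ∧
      ∀ k : ℕ, TendstoLocallyUniformlyOn (fun j => iteratedFDeriv ℝ k (f (ψ j)))
        (iteratedFDeriv ℝ k g) atTop (ball x0 (r / 2)) := by
  let χ : ContDiffBump x0 := ⟨r / 2, 3 * r / 4, by positivity, by linarith⟩
  have hs : ∀ j, tsupport (fun x => χ x • f j x) ⊆ ball x0 r := fun j =>
    (tsupport_smul_subset_left _ _).trans (by
      rw [χ.tsupport_eq]
      exact closedBall_subset_ball (by change 3 * r / 4 < r; linarith))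
  have hb : LB (Bl (fun _ => x0) r) fun j x => χ x • f j x :=
    LB.of_lk one_pos le_rfl fun k => ((LB.single isOpen_univ χ.contDiff.contDiffOn
      (subset_univ _)).lk one_pos le_rfl k).smul (h.lk one_pos le_rfl k)
  obtain ⟨ψ, g, hψ, hg, hl⟩ := NLib.Ell.arzela n F (fun j x => χ x • f j x)
    (fun j => contDiff_iff_contDiffAt.2 fun x => by
      by_cases hx : x ∈ tsupport fun x => χ x • f j x
      · exact (hb.1 j).contDiffAt (isOpen_ball.mem_nhds (hs j hx))
      · exact contDiffAt_const.congr_of_eventuallyEq (notMem_tsupport_iff_eventuallyEq.1 hx))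
    (fun k _ => by
      obtain ⟨C, hC⟩ := hb.2 k
      refine ⟨max C 0, fun j x _ => ?_⟩
      by_cases hx : x ∈ ball x0 r
      · exact (hC j x hx).trans (le_max_left _ _)
      · rw [Function.notMem_support.1 fun h' => hx (hs j (support_iteratedFDeriv_subset k h')),
          norm_zero]
        exact le_max_right _ _)
  have key : ∀ k : ℕ, TendstoLocallyUniformlyOn (fun j => iteratedFDeriv ℝ k (f (ψ j)))
      (iteratedFDeriv ℝ k g) atTop (ball x0 (r / 2)) := fun k => by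
    refine ((hl k).tendstoLocallyUniformlyOn (s := ball x0 (r / 2))).congr fun j x hx => ?_
    refine (Filter.EventuallyEq.iteratedFDeriv ℝ ?_ k).eq_of_nhds
    filter_upwards [isOpen_ball.mem_nhds hx] with y hy
    rw [χ.one_of_mem_closedBall (ball_subset_closedBall hy), one_smul]
  refine ⟨ψ, g, hψ, hg, fun x hx => ?_, key⟩
  have := ((continuous_eval_const (0 : Fin 0 → E n)).tendsto _).comp ((key 0).tendsto_at hx)
  simpa only [Function.comp_def, iteratedFDeriv_zero_apply] using this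

theorem arz : ArzStmt := by
  intro n F _ _ _ x0 r f h
  rcases le_or_gt r 0 with hr | hr
  · have e : ball x0 (r / 2) = ∅ := ball_eq_empty.2 (by linarith)
    rw [e]
    exact ⟨⟨id, 0, strictMono_id, fun _ hx => hx.elim⟩, fun _ _ =>
      ⟨contDiffOn_empty, fun _ _ _ _ hx => hx.elim⟩⟩
  obtain ⟨ψ, g, hψ, hg, h0, -⟩ := arz_sub hr h
  refine ⟨⟨ψ, g, hψ, h0⟩, fun w hw => ⟨hg.contDiffOn.congr fun x hx =>
    tendsto_nhds_unique ((hw x hx).comp hψ.tendsto_atTop) (h0 x hx), fun k => ?_⟩⟩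
  refine (tendstoLocallyUniformlyOn_iff_forall_isCompact isOpen_ball).2 fun K hK hc u hu => ?_
  by_contra hn
  obtain ⟨φ, hφ, hφ'⟩ := extraction_of_frequently_atTop (not_eventually.1 hn)
  obtain ⟨ψ', g', hψ', -, h0', hl⟩ := arz_sub hr (h.reindex φ fun _ => Subset.rfl)
  obtain ⟨j, hj⟩ := ((tendstoLocallyUniformlyOn_iff_forall_isCompact isOpen_ball).1 (hl k) K hK hc
    u hu).exists
  refine hφ' (ψ' j) fun x hx => ?_
  have e : iteratedFDeriv ℝ k w x = iteratedFDeriv ℝ k g' x := by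
    refine (Filter.EventuallyEq.iteratedFDeriv ℝ ?_ k).eq_of_nhds
    filter_upwards [isOpen_ball.mem_nhds (hK hx)] with y hy
    exact tendsto_nhds_unique ((hw y hy).comp (hφ.comp hψ').tendsto_atTop) (h0' y hy)
  rw [e]
  exact hj x hx

theorem rho : RhoStmt := by
  intro n x0 r s hr hs
  obtain ⟨π, hπ, hp⟩ := N346.An.per n
  obtain ⟨hp, h1⟩ := hp 0
  have h2 := hπ.1 0
  let b : ContDiffBump (0 : E n) := ⟨1, s / r, one_pos, (one_lt_div hr).2 hs⟩
  have hb : ContDiff ℝ ∞ b := b.contDiff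
  refine ⟨8 * r, fun x => x0 + r • b (π 0 (r⁻¹ • (x - x0))) • π 0 (r⁻¹ • (x - x0)), by positivity,
    by fun_prop, fun x j => ?_, fun x hx => ?_, fun x => ?_⟩
  · have e : r⁻¹ • (x + EuclideanSpace.single j (8 * r) - x0)
        = r⁻¹ • (x - x0) + EuclideanSpace.single j (8 * (((0 : ℕ) : ℝ) + 1)) := by
      ext i
      by_cases hij : i = j
      · subst hij; simp; field_simp; ring
      · simp [hij]
    simp only [e, hp _ j]
  · have h3 : ‖r⁻¹ • (x - x0)‖ ≤ 1 := by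
      rw [norm_smul, norm_inv, Real.norm_of_nonneg hr.le, inv_mul_le_one₀ hr]
      exact (mem_ball_iff_norm.1 hx).le
    simp only
    rw [h1 _ (by simpa using h3), b.one_of_mem_closedBall (mem_closedBall_zero_iff.2 h3), one_smul,
      smul_inv_smul₀ hr.ne', add_sub_cancel]
  · rw [mem_closedBall_iff_norm, add_sub_cancel_left, norm_smul, norm_smul,
      Real.norm_of_nonneg hr.le, Real.norm_of_nonneg b.nonneg, ← le_div_iff₀' hr]
    set y := π 0 (r⁻¹ • (x - x0))
    rcases le_or_gt (s / r) ‖y‖ with h | h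
    · rw [b.zero_of_le_dist (by rwa [dist_zero_right]), zero_mul]
      exact b.rOut_pos.le
    · exact (mul_le_of_le_one_left (norm_nonneg _) b.le_one).trans h.le

end Crest.Agent.N222.J
end
end

-- ▼ part N222/J/Tor
section

/-!
# Row 222, toolbox J, leaf Tor (helper62): existence on a torus from `EstStmt`, `NdStmt` and the
Leray-Schauder theorem `N346.An.ex2'`.
-/

set_option autoImplicit false

open Set Filter Topology Metric
open scoped ContDiff
open Crest.GeometryTopology.CoordMetric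
open Crest.Agent.R247.Bo84
open Crest.Agent.R238 (Ell)
open Crest.Agent.N346.An (Per UB UB1 UC UPos Sys Adm SysCont APri Y0 Y1 N0 N1 st xi aD2 Pol)

noncomputable section

namespace Crest.Agent.N222.J

namespace Tor

variable {n : ℕ}

/-! ### matrices -/

section mat

variable {lo : ℝ} {A : Matrix (Fin n) (Fin n) ℝ}

/-- symmetric and elliptic from below -/
def Lo (lo : ℝ) (A : Matrix (Fin n) (Fin n) ℝ) : Prop :=
  (∀ i j, A i j = A j i) ∧ ∀ z : Fin n → ℝ, lo * ∑ i, z i ^ 2 ≤ ∑ i, ∑ j, A i j * z i * z j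

theorem sq_nn (z : Fin n → ℝ) : 0 ≤ ∑ i, z i ^ 2 := Finset.sum_nonneg fun _ _ => sq_nonneg _

theorem Lo.ell {C : ℝ} (h : Lo lo A) (hC : ∀ i j, |A i j| ≤ C) : Ell lo (max (C * n) lo) A :=
  ⟨h.1, fun z => ⟨h.2 z, ((le_abs_self _).trans (R238.sm_quad_abs_le hC z)).trans
    (mul_le_mul_of_nonneg_right (le_max_left _ _) (sq_nn z))⟩⟩

theorem Lo.ex (h : Lo lo A) : ∃ hi, lo ≤ hi ∧ Ell lo hi A :=
  ⟨_, le_max_right _ _, h.ell (C := ∑ i, ∑ j, |A i j|) fun i j =>
    (Finset.single_le_sum (f := fun j => |A i j|) (fun _ _ => abs_nonneg _)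
      (Finset.mem_univ j)).trans (Finset.single_le_sum (f := fun i => ∑ j, |A i j|)
        (fun _ _ => Finset.sum_nonneg fun _ _ => abs_nonneg _) (Finset.mem_univ i))⟩

theorem Lo.posDef (hlo : 0 < lo) (h : Lo lo A) : A.PosDef :=
  let ⟨_, _, h⟩ := h.ex; h.sm_posDef hlo

theorem Lo.graph (h : Lo lo A) (p : Fin n → ℝ) : Lo lo (A + Matrix.vecMulVec p p) := by
  refine ⟨fun i j => by simp only [Matrix.add_apply, Matrix.vecMulVec_apply, h.1 i j, mul_comm],
    fun z => ?_⟩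
  have e : ∑ i, ∑ j, (A + Matrix.vecMulVec p p) i j * z i * z j
      = ∑ i, ∑ j, A i j * z i * z j + (∑ i, p i * z i) ^ 2 := by
    rw [sq, Finset.sum_mul_sum, ← Finset.sum_add_distrib]
    refine Finset.sum_congr rfl fun i _ => ?_
    rw [← Finset.sum_add_distrib]
    refine Finset.sum_congr rfl fun j _ => ?_
    rw [Matrix.add_apply, Matrix.vecMulVec_apply]
    ring
  rw [e]
  exact (h.2 z).trans (le_add_of_nonneg_right (sq_nonneg _))

theorem quad_one (z : Fin n → ℝ) :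
    ∑ i, ∑ j, (1 : Matrix (Fin n) (Fin n) ℝ) i j * z i * z j = ∑ i, z i ^ 2 := by
  simp [Matrix.one_apply, sq]

theorem ell_one : Ell 1 1 (1 : Matrix (Fin n) (Fin n) ℝ) :=
  ⟨fun i j => by simp [Matrix.one_apply, eq_comm], fun z => by simp only [quad_one, one_mul, le_refl,
    and_self]⟩

theorem Lo.mix (h : Lo lo A) {t : ℝ} (ht : t ∈ Icc (0 : ℝ) 1) :
    Lo (min lo 1) (t • A + (1 - t) • (1 : Matrix (Fin n) (Fin n) ℝ)) := by
  refine ⟨fun i j => by
    simp only [Matrix.add_apply, Matrix.smul_apply, h.1 i j, ell_one.1 i j], fun z => ?_⟩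
  have e : ∑ i, ∑ j, (t • A + (1 - t) • (1 : Matrix (Fin n) (Fin n) ℝ)) i j * z i * z j
      = t * ∑ i, ∑ j, A i j * z i * z j + (1 - t) * ∑ i, z i ^ 2 := by
    rw [← quad_one]
    simp only [Finset.mul_sum, ← Finset.sum_add_distrib]
    refine Finset.sum_congr rfl fun i _ => Finset.sum_congr rfl fun j _ => ?_
    simp only [Matrix.add_apply, Matrix.smul_apply, smul_eq_mul]
    ring
  rw [e]
  have h1 := mul_le_mul_of_nonneg_right (min_le_left lo 1) (sq_nn z)
  have h2 := mul_le_mul_of_nonneg_right (min_le_right lo 1) (sq_nn z)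
  have h3 := mul_le_mul_of_nonneg_left (h1.trans (h.2 z)) ht.1
  have h4 := mul_le_mul_of_nonneg_left h2 (sub_nonneg.2 ht.2)
  linarith

theorem Lo.inv0 (hlo : 0 < lo) (h : Lo lo A) : Ell 0 (1 / lo) A⁻¹ := by
  obtain ⟨hi, h1, h2⟩ := h.ex
  exact (h2.sm_inv hlo h1).sm_mono (one_div_pos.2 (hlo.trans_le h1)).le le_rfl

theorem Lo.one_le (hlo : 0 < lo) (h : Lo lo A) (p : Fin n → ℝ) :
    1 ≤ 1 + ∑ i, ∑ j, A⁻¹ i j * p i * p j :=
  le_add_of_nonneg_right (by simpa using ((h.inv0 hlo).2 p).1)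

theorem Lo.one_le_jW (hlo : 0 < lo) (h : Lo lo A) (p : Fin n → ℝ) : 1 ≤ jW A p :=
  Real.one_le_sqrt.2 (h.one_le hlo p)

end mat

theorem exists_lo {g : MetricField n} {L : ℝ} (hg : IsRiemannianOn g univ) (hL : 0 < L)
    (hp : Per L g) : ∃ lo, 0 < lo ∧ ∀ x, Lo lo (g x) := by
  have hc : ∀ i j, Continuous fun x => g x i j := fun i j =>
    (contDiffOn_univ.1 (hg.contDiffOn i j)).continuous
  have hQ : Continuous fun w : E n × E n => ∑ i, ∑ j, g w.1 i j * w.2 i * w.2 j :=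
    continuous_finsetSum _ fun i _ => continuous_finsetSum _ fun j _ =>
      (((hc i j).comp continuous_fst).mul (by fun_prop)).mul (by fun_prop)
  obtain ⟨c, hc0, H⟩ := ((isCompact_closedBall (0 : E n) (√(n * L ^ 2))).prod
    (isCompact_sphere (0 : E n) 1)).exists_forall_le' hQ.continuousOn (a := 0) (by
      rintro ⟨x, v⟩ ⟨-, hv⟩
      have h0 : (fun i => v i) ≠ 0 := fun h => by
        have : v = 0 := by ext i; exact congrFun h i
        simp [this] at hv
      have := (hg.posDef x trivial).dotProduct_mulVec_pos h0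
      rw [star_trivial, R238.sm_quad_eq] at this
      exact this)
  refine ⟨c, hc0, fun x => ⟨fun i j => ?_, fun z => ?_⟩⟩
  · simpa using (hg.posDef x trivial).1.apply j i
  obtain ⟨y, hy, e⟩ := hp.reduce hL x
  rw [← e]
  set v : E n := WithLp.toLp 2 z with hv
  have hn : ∑ i, z i ^ 2 = ‖v‖ ^ 2 := (EuclideanSpace.real_norm_sq_eq v).symm
  rcases eq_or_ne v 0 with h0 | h0
  · have : ∀ i, z i = 0 := fun i => congrArg (fun w : E n => w i) h0
    simp [this]
  have hn0 : 0 < ‖v‖ := norm_pos_iff.2 h0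
  have h1 := H (y, ‖v‖⁻¹ • v) ⟨hy, by simp [norm_smul, hn0.ne']⟩
  have e2 : ∑ i, ∑ j, g y i j * z i * z j
      = (∑ i, ∑ j, g y i j * (‖v‖⁻¹ • v) i * (‖v‖⁻¹ • v) j) * ‖v‖ ^ 2 := by
    simp only [Finset.sum_mul]
    refine Finset.sum_congr rfl fun i _ => Finset.sum_congr rfl fun j _ => ?_
    have : ∀ i, (‖v‖⁻¹ • v) i = ‖v‖⁻¹ * z i := fun _ => rfl
    rw [this, this]
    field_simp
  rw [hn, e2]
  exact mul_le_mul_of_nonneg_right h1 (sq_nonneg _)

/-! ### the coefficients on jets -/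

/-- the right hand side of the nondivergence form -/
def rhs {P : Type} (Φ : P × ℝ × ℝ → ℝ) (G : Matrix (Fin n) (Fin n) ℝ)
    (Γ : Fin n → Fin n → Fin n → ℝ) (b p : Fin n → ℝ) (c : P) (f : ℝ) : ℝ :=
  jW G p * Φ (c, f, (jW G p)⁻¹) - ∑ i, b i * ∑ j, G⁻¹ i j * p j
    + ∑ i, ∑ j, jA G p i j * ∑ k, Γ k i j * p k

theorem rhs_zero {P : Type} (Φ : P × ℝ × ℝ → ℝ) (G : Matrix (Fin n) (Fin n) ℝ)
    (Γ : Fin n → Fin n → Fin n → ℝ) (b : Fin n → ℝ) {p : Fin n → ℝ} (hp : ∀ i, p i = 0) (c : P)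
    (f : ℝ) : rhs Φ G Γ b p c f = Φ (c, f, 1) := by
  simp [rhs, jW, hp]

section gen

variable {ι Y : Type} [NormedAddCommGroup Y] [NormedSpace ℝ Y] {N : Y → ℝ} {lo : ℝ}
  {G : ι → Y → Matrix (Fin n) (Fin n) ℝ} {p b : ι → Y → Fin n → ℝ}

theorem ub_ent (hG : ∀ k l, UB N fun i y => G i y k l) (M : ℝ) :
    ∃ C, ∀ i y, N y ≤ M → ∀ k l, |G i y k l| ≤ C := by
  obtain ⟨C, -, hC⟩ :=
    (UB.pi (w := fun i y k l => G i y k l) fun k => UB.pi fun l => hG k l).bdd M
  exact ⟨C, fun i y hy k l => ((norm_le_pi_norm (fun l => G i y k l) l).trans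
    (norm_le_pi_norm (fun k l => G i y k l) k)).trans (hC i y hy)⟩

theorem ub_graph (hG : ∀ k l, UB N fun i y => G i y k l) (hp : ∀ k, UB N fun i y => p i y k)
    (k l : Fin n) : UB N fun i y => (G i y + Matrix.vecMulVec (p i y) (p i y)) k l :=
  ((hG k l).add ((hp k).mul (hp l))).congr fun _ _ => by
    rw [Matrix.add_apply, Matrix.vecMulVec_apply]

variable (hlo : 0 < lo) (hG : ∀ k l, UB N fun i y => G i y k l) (he : ∀ i y, Lo lo (G i y))

include hlo hG he

theorem ub_inv (k l : Fin n) : UB N fun i y => (G i y)⁻¹ k l := by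
  refine UB.matInv hG ⟨fun i y => ((he i y).posDef hlo).det_pos, fun M => ?_⟩ k l
  obtain ⟨C, hC⟩ := ub_ent hG M
  obtain ⟨c, hc, H⟩ := det_lower n hlo (max (C * n) lo) C
  exact ⟨c, hc, fun i y hy => H _ ((he i y).ell (hC i y hy)) (hC i y hy)⟩

variable (hp : ∀ k, UB N fun i y => p i y k)

include hp

theorem ub_jA (k l : Fin n) : UB N fun i y => jA (G i y) (p i y) k l :=
  ub_inv hlo (ub_graph hG hp) (fun i y => (he i y).graph _) k l

theorem ell_jA (M : ℝ) : ∃ lo' hi' : ℝ, 0 < lo' ∧ lo' ≤ 1 ∧ 1 ≤ hi' ∧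
    ∀ i y, N y ≤ M → Ell lo' hi' (jA (G i y) (p i y)) := by
  obtain ⟨C, hC⟩ := ub_ent (ub_graph hG hp) M
  have h1 : 0 < max (C * n) lo := hlo.trans_le (le_max_right _ _)
  exact ⟨min (1 / max (C * n) lo) 1, max (1 / lo) 1, by positivity, min_le_right _ _,
    le_max_right _ _, fun i y hy => ((((he i y).graph _).ell (hC i y hy)).sm_inv hlo
      (le_max_right _ _)).sm_mono (min_le_left _ _) (le_max_left _ _)⟩

theorem ub_jW : UB N fun i y => jW (G i y) (p i y) :=
  ((UB.const' 1).add (UB.sum _ fun k _ => UB.sum _ fun l _ =>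
    ((ub_inv hlo hG he k l).mul (hp k)).mul (hp l))).sqrt
    (UPos.of_le one_pos fun i y => (he i y).one_le hlo _)

theorem ub_rhs {P : Type} [NormedAddCommGroup P] [NormedSpace ℝ P] [FiniteDimensional ℝ P]
    {Φ : P × ℝ × ℝ → ℝ} (hΦ : ContDiff ℝ ∞ Φ) {Γ : ι → Y → Fin n → Fin n → Fin n → ℝ}
    (hΓ : ∀ k j l, UB N fun i y => Γ i y k j l) (hb : ∀ k, UB N fun i y => b i y k)
    {c : ι → Y → P} (hc : UB N c) {f : ι → Y → ℝ} (hf : UB N f) :
    UB N fun i y => rhs Φ (G i y) (Γ i y) (b i y) (p i y) (c i y) (f i y) := by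
  have hW := ub_jW hlo hG he hp
  have hW' := hW.inv (UPos.of_le one_pos fun i y => (he i y).one_le_jW hlo _)
  exact ((hW.mul ((hc.prodMk (hf.prodMk hW')).comp_smooth hΦ)).sub
    (UB.sum _ fun k _ => (hb k).mul (UB.sum _ fun l _ => (ub_inv hlo hG he k l).mul (hp l)))).add
    (UB.sum _ fun j _ => UB.sum _ fun l _ => (ub_jA hlo hG he hp j l).mul
      (UB.sum _ fun k _ => (hΓ k j l).mul (hp k)))

end gen

/-! ### the periodic maximum principle -/

section maxp

variable {L κ B : ℝ} {f : E n → ℝ} {A : E n → Matrix (Fin n) (Fin n) ℝ} {ψ : E n → ℝ → ℝ}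

theorem c0_up (hL : 0 < L) (hf : ContDiff ℝ 2 f) (hp : Per L f) (hκ : 0 < κ) (hB : 0 ≤ B)
    (hA : ∀ x, ∃ hi, Ell 0 hi (A x))
    (he : ∀ x, (∀ i, pderiv i f x = 0) → aD2 A f x = ψ x (f x))
    (hψ : ∀ x s, 0 ≤ s → κ * s - B ≤ ψ x s) (x : E n) : f x ≤ B / κ := by
  obtain ⟨x0, h0⟩ := hp.exists_max hL hf.continuous
  have hm : IsLocalMax f x0 := Eventually.of_forall h0
  obtain ⟨hi, hA⟩ := hA x0
  have h1 := NLib.Ell.contr_le le_rfl le_rfl hA (R238.Sch.D2 f x0)
    (NLib.Ell.D2_symm hf.contDiffAt) fun v => by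
      rw [zero_mul]
      exact R238.MaxP.second_deriv_nonpos_of_isLocalMax hf hm v
  have h2 := he x0 fun i => by simp [pderiv, hm.fderiv_eq_zero]
  rw [N346.An.aD2_eq_P2_fun hf] at h2
  refine (h0 x).trans ?_
  rcases le_total (f x0) 0 with h | h
  · exact h.trans (by positivity)
  · rw [le_div_iff₀ hκ]
    have h3 := hψ x0 _ h
    rw [← h2] at h3
    unfold R273.SchB_152.P2 at h3
    linarith

theorem c0 (hL : 0 < L) (hf : ContDiff ℝ 2 f) (hp : Per L f) (hκ : 0 < κ) (hB : 0 ≤ B)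
    (hA : ∀ x, ∃ hi, Ell 0 hi (A x))
    (he : ∀ x, (∀ i, pderiv i f x = 0) → aD2 A f x = ψ x (f x))
    (hψ : ∀ x s, 0 ≤ s → κ * s - B ≤ ψ x s ∧ ψ x (-s) ≤ B - κ * s) (x : E n) :
    |f x| ≤ B / κ := by
  refine abs_le'.2 ⟨c0_up hL hf hp hκ hB hA he (fun x s hs => (hψ x s hs).1) x, ?_⟩
  refine c0_up (f := fun x => -f x) (ψ := fun x s => -ψ x (-s)) hL hf.neg (hp.comp fun t => -t)
    hκ hB hA (fun y hy => ?_) (fun y s hs => by linarith [(hψ y s hs).2]) x
  have := he y fun i => by simpa [N346.Bs.pd_neg] using hy i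
  rw [N346.An.aD2_eq_P2_fun hf.neg, NLib.Ell.P2_neg_fun, ← N346.An.aD2_eq_P2_fun hf, this, neg_neg]

theorem eq_zero (hL : 0 < L) (hf : ContDiff ℝ 2 f) (hp : Per L f)
    (hA : ∀ x, ∃ hi, Ell 0 hi (A x))
    (he : ∀ x, (∀ i, pderiv i f x = 0) → aD2 A f x = f x) : f = fun _ => 0 :=
  funext fun x => by
    simpa using c0 (ψ := fun _ s => s) hL hf hp one_pos le_rfl hA he
      (fun _ s _ => ⟨by linarith, by linarith⟩) x

end maxp

/-! ### the system and the homotopy -/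

variable {P : Type} {Φ : P × ℝ × ℝ → ℝ} {g : MetricField n} {β : E n → Fin n → ℝ} {c : E n → P}

/-- the equation as a triangular system -/
def sys (Φ : P × ℝ × ℝ → ℝ) (g : MetricField n) (β : E n → Fin n → ℝ) (c : E n → P) : Sys n where
  a1 y := jA (g y.1) y.2.2.2
  b1 _ := 0
  c1 y := rhs Φ (g y.1) (christoffel g y.1) (β y.1) y.2.2.2 (c y.1) y.2.1
  a2 _ := 1
  F2 y := y.1.2.2.1

theorem sys_sol (hN : NdStmt) (hg : IsRiemannianOn g univ) {lo : ℝ} (hlo : 0 < lo)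
    (he : ∀ x, Lo lo (g x)) {f z : E n → ℝ} (h : (sys Φ g β c).Sol f z) (x : E n) :
    cQ g β f x = Φ (c x, f x, (cW g f x)⁻¹) := by
  have hW : jW (g x) (d1 f x) ≠ 0 := (one_pos.trans_le ((he x).one_le_jW hlo _)).ne'
  have e : ∑ i, ∑ j, jA (g x) (d1 f x) i j * d2 f x i j
      = rhs Φ (g x) (christoffel g x) (β x) (d1 f x) (c x) (f x) := by
    have := h.e1 x
    simp only [sys, Pi.zero_apply, zero_mul, Finset.sum_const_zero, add_zero] at this
    exact this
  rw [hN n g β f univ hg h.sf.contDiffOn x trivial, cW_eq, jQ, div_eq_iff hW]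
  simp only [mul_sub, Finset.sum_sub_distrib]
  rw [e, rhs]
  ring

theorem per_chr {L : ℝ} (hg : Per L g) : Per L (christoffel g) :=
  Per.pi fun k => Per.pi fun i => Per.pi fun j => fun x m => by
    have h : ∀ a b d, pderiv a (fun y => g y b d) (x + EuclideanSpace.single m L)
        = pderiv a (fun y => g y b d) x := fun a b d => (hg.comp fun G => G b d).pderiv a x m
    simp only [christoffel, inverseField, h, hg x m]

theorem sys_per {L : ℝ} (hg : Per L g) (hβ : Per L β) (hc : Per L c) : (sys Φ g β c).Per L :=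
  ⟨fun s => hg.comp fun G => jA G s.2.2, fun _ => Per.const _, fun s x j => by
    simp only [sys, hg x j, per_chr hg x j, hβ x j, hc x j], fun _ => Per.const _,
    fun s _ => Per.const s.2.1⟩

/-- the homotopy of metrics -/
def gt (g : MetricField n) (t : ℝ) : MetricField n := fun x => t • g x + (1 - t) • 1

/-- the homotopy of right hand sides -/
def Φt (Φ : P × ℝ × ℝ → ℝ) (w : (P × ℝ) × ℝ × ℝ) : ℝ :=
  w.1.2 * Φ (w.1.1, w.2) + (1 - w.1.2) * w.2.1

/-- the homotopy of systems -/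
def hom (Φ : P × ℝ × ℝ → ℝ) (g : MetricField n) (β : E n → Fin n → ℝ) (c : E n → P) (t : ℝ) :
    Sys n := sys (Φt Φ) (gt g t) (fun x => t • β x) fun x => (c x, t)

theorem gt_apply (t : ℝ) (x : E n) (k l : Fin n) :
    gt g t x k l = t * g x k l + (1 - t) * (1 : Matrix (Fin n) (Fin n) ℝ) k l := rfl

theorem chr_gt (hg : ∀ k l, ContDiff ℝ ∞ fun x => g x k l) (t : ℝ) (x : E n) (k i j : Fin n) :
    christoffel (gt g t) x k i j = 1 / 2 * ∑ l, (gt g t x)⁻¹ k l * (t *
      (pderiv i (fun y => g y j l) x + pderiv j (fun y => g y i l) x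
        - pderiv l (fun y => g y i j) x)) := by
  have h : ∀ a b d, pderiv a (fun y => gt g t y b d) x = t * pderiv a (fun y => g y b d) x :=
    fun a b d => by
      simp only [gt_apply, pderiv, fderiv_add_const]
      rw [fderiv_const_mul ((hg b d).differentiable (by simp) x)]
      rfl
  simp only [christoffel, inverseField, h, mul_add, mul_sub]

theorem riem_gt (hg : ∀ k l, ContDiff ℝ ∞ fun x => g x k l) {lo : ℝ} (hlo : 0 < lo)
    (he : ∀ x, Lo lo (g x)) {t : ℝ} (ht : t ∈ Icc (0 : ℝ) 1) : IsRiemannianOn (gt g t) univ :=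
  ⟨isOpen_univ, fun k l => ((contDiff_const.mul (hg k l)).add contDiff_const).contDiffOn,
    fun x _ => ((he x).mix ht).posDef (lt_min hlo one_pos)⟩

/-- size on the space of parameters and states -/
def NT (w : ℝ × Y0 n) : ℝ := max ‖w.1‖ (N0 w.2)

section joint

variable {F : Type} [NormedAddCommGroup F] [NormedSpace ℝ F]

theorem jb_up {Θ : Y0 n → F} (h : UB N0 fun _ : Unit => Θ) :
    UB NT fun (_ : Unit) (w : ℝ × Y0 n) => Θ w.2 :=
  h.comp (UB1.clm (ContinuousLinearMap.snd ℝ ℝ (Y0 n))) fun M =>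
    ⟨M, fun _ _ hy => (le_max_right _ _).trans hy⟩

theorem jb_σ : UB NT fun (_ : Unit) (w : ℝ × Y0 n) => Real.smoothTransition w.1 :=
  ((UB1.clm (ContinuousLinearMap.fst ℝ ℝ (Y0 n))).ub fun M =>
    ⟨M, fun _ _ hy => (le_max_left _ _).trans hy⟩).comp_smooth Real.smoothTransition.contDiff

theorem nt_le {M : ℝ} (t : Icc (0 : ℝ) 1) {y : Y0 n} (hy : N0 y ≤ M) : NT (t.1, y) ≤ max 1 M :=
  max_le_max (abs_le.2 ⟨by linarith [t.2.1], t.2.2⟩) hy

theorem jb_ub {Θ : ℝ × Y0 n → F} (h : UB NT fun _ : Unit => Θ) :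
    UB N0 fun (t : Icc (0 : ℝ) 1) y => Θ (t.1, y) :=
  (h.reindex fun _ : Icc (0 : ℝ) 1 => ()).comp
    ((UB.const ⟨1, fun t : Icc (0 : ℝ) 1 =>
      (abs_le.2 ⟨by linarith [t.2.1], t.2.2⟩ : ‖t.1‖ ≤ 1)⟩).ub1.prodMk UB1.id)
    fun M => ⟨max 1 M, fun t _ hy => nt_le t hy⟩

theorem jb_cont {Θ : ℝ × Y0 n → F} (h : UB NT fun _ : Unit => Θ) (y : Y0 n) :
    ContinuousOn (fun t => Θ (t, y)) (Icc 0 1) :=
  ((h.1 ()).continuous.comp (continuous_id.prodMk continuous_const)).continuousOn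

end joint

theorem σ_mem (t : ℝ) : Real.smoothTransition t ∈ Icc (0 : ℝ) 1 :=
  ⟨Real.smoothTransition.nonneg t, Real.smoothTransition.le_one t⟩

variable [NormedAddCommGroup P] [NormedSpace ℝ P]

theorem Φt_smooth (hΦ : ContDiff ℝ ∞ Φ) : ContDiff ℝ ∞ (Φt Φ) := by
  unfold Φt
  fun_prop

variable [FiniteDimensional ℝ P] {L κ lo : ℝ}

theorem adm_cont (hL : 0 < L) (hlo : 0 < lo) (hg : ∀ k l, ContDiff ℝ ∞ fun x => g x k l)
    (he : ∀ x, Lo lo (g x)) (hβ : ContDiff ℝ ∞ β) (hc : ContDiff ℝ ∞ c) (pg : Per L g)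
    (pβ : Per L β) (pc : Per L c) (hΦ : ContDiff ℝ ∞ Φ) :
    Adm (fun t : Icc (0 : ℝ) 1 => hom Φ g β c (Real.smoothTransition t)) ∧
      SysCont fun t => hom Φ g β c (Real.smoothTransition t) := by
  have ug : ∀ k l, UC fun (_ : Unit) x => g x k l := fun k l =>
    (pg.comp fun G => G k l).uc hL (hg k l)
  have hG : ∀ k l, UB NT fun (_ : Unit) (w : ℝ × Y0 n) =>
      gt g (Real.smoothTransition w.1) w.2.1 k l := fun k l =>
    (jb_σ.mul (jb_up (ug k l).lift)).add (((UB.const' 1).sub jb_σ).mul (UB.const' _))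
  have hl : 0 < min lo 1 := lt_min hlo one_pos
  have hE : ∀ (_ : Unit) (w : ℝ × Y0 n), Lo (min lo 1) (gt g (Real.smoothTransition w.1) w.2.1) :=
    fun _ w => (he _).mix (σ_mem _)
  have hp : ∀ k, UB NT fun (_ : Unit) (w : ℝ × Y0 n) => w.2.2.2.2 k := fun k =>
    jb_up (N346.An.ub_p k)
  have hd : ∀ a b d, UB NT fun (_ : Unit) (w : ℝ × Y0 n) => pderiv a (fun y => g y b d) w.2.1 :=
    fun a b d => jb_up (UC.lift ((ug b d).pd a))
  have hΓ : ∀ k i j, UB NT fun (_ : Unit) (w : ℝ × Y0 n) =>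
      christoffel (gt g (Real.smoothTransition w.1)) w.2.1 k i j := fun k i j =>
    ((UB.sum _ fun l _ => (ub_inv hl hG hE k l).mul (jb_σ.mul
      (((hd i j l).add (hd j i l)).sub (hd l i j)))).const_mul (1 / 2)).congr
      fun _ _ => chr_gt hg _ _ k i j
  have h1 := ub_jA hl hG hE hp
  have h2 := ub_rhs hl hG hE hp (Φt_smooth hΦ) hΓ
    (b := fun _ w => Real.smoothTransition w.1 • β w.2.1)
    (fun k => (jb_σ.smul (jb_up (pβ.uc hL hβ).lift)).apply k)
    ((jb_up (pc.uc hL hc).lift).prodMk jb_σ) (jb_up N346.An.ub_f)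
  refine ⟨⟨fun k l => jb_ub (h1 k l), fun _ => UB.const' 0, jb_ub h2, fun _ _ => UB.const' _,
    Pol.coef' N346.An.ub_z 2, fun M => ?_⟩, fun y k l => jb_cont (h1 k l) y,
    fun _ _ => continuousOn_const, jb_cont h2, fun _ _ _ => continuousOn_const,
    fun _ => continuousOn_const⟩
  obtain ⟨a, b, ha, ha1, hb, H⟩ := ell_jA hl hG hE hp (max 1 M)
  exact ⟨a, b, ha, ha1.trans hb, fun t y hy => ⟨H () (t.1, y) (nt_le t hy), ell_one.sm_mono ha1 hb⟩⟩

theorem two_le : (2 : WithTop ℕ∞) ≤ ∞ := N346.An.nat_le_inf 2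

omit [NormedAddCommGroup P] [NormedSpace ℝ P] [FiniteDimensional ℝ P] in
theorem sch_bound (hL : 0 < L) (hlo : 0 < lo) (he : ∀ x, Lo lo (g x)) :
    APri L (hom Φ g β c 0).sch := by
  refine ⟨0, fun s _ f z h pf pz x => ?_⟩
  have hz : z = fun _ => 0 := eq_zero (A := fun _ => 1) hL (h.sz.of_le two_le) pz
    (fun _ => ⟨1, ell_one.sm_mono zero_le_one le_rfl⟩) fun y _ => by
      have := h.e2 y
      simp only [Sys.sch, hom, sys, st] at this
      rw [this]
      ring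
  have hf : f = fun _ => 0 := eq_zero (A := fun y => jA (gt g 0 y) (d1 f y)) hL
    (h.sf.of_le two_le) pf (fun y => ⟨_, (((he y).mix (left_mem_Icc.2 zero_le_one)).graph _).inv0
      (lt_min hlo one_pos)⟩) fun y hy => by
      have := h.e1 y
      simp only [Sys.sch, hom, sys, st, rhs_zero _ _ _ _ hy, Φt, Pi.zero_apply, mul_zero, zero_mul,
        Finset.sum_const_zero] at this
      refine Eq.trans this ?_
      ring
  subst hf hz
  have e0 : ∀ i : Fin n, pderiv i (fun _ : E n => (0 : ℝ)) = fun _ => 0 := fun i => by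
    funext x; simp [pderiv]
  simp [N1, st, xi, e0, Prod.norm_def, funext_iff]

theorem lb_of_uc {ι F : Type} [NormedAddCommGroup F] [NormedSpace ℝ F] {u : ι → E n → F}
    (h : UC u) (S : ι → Set (E n)) : LB S u :=
  ⟨fun i => (h.1 i).contDiffOn, fun k => (h.2 k 0).imp fun _ hC i x _ => hC i x le_rfl⟩

omit [FiniteDimensional ℝ P] in
theorem good (hκ : 0 < κ) (hΦ : ContDiff ℝ ∞ Φ)
    (hd : ∀ x t, ∀ v ∈ Icc (0 : ℝ) 1, κ ≤ deriv (fun s => Φ (c x, s, v)) t) :
    Good (Φt Φ) univ (range c ×ˢ Icc 0 1) := by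
  refine ⟨isOpen_univ, ordConnected_univ, (Φt_smooth hΦ).contDiffOn, ?_⟩
  rintro ⟨_, τ⟩ ⟨⟨x, rfl⟩, hτ⟩ t - v hv
  have h1 : DifferentiableAt ℝ (fun s => Φ (c x, s, v)) t :=
    (hΦ.differentiable (by simp) _).comp t (by fun_prop)
  have h2 := (h1.hasDerivAt.const_mul τ).add ((hasDerivAt_id t).const_mul (1 - τ))
  have h3 : deriv (fun s => Φt Φ ((c x, τ), s, v)) t = _ := h2.deriv
  rw [h3]
  have h4 := mul_le_mul_of_nonneg_left (hd x t v hv) hτ.1
  rcases hτ.1.eq_or_lt with h | h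
  · have : τ = 0 := h.symm
    subst this
    norm_num
  · have : τ ≤ 1 := hτ.2
    nlinarith [mul_pos h hκ]

theorem apri (hE : EstStmt) (hN : NdStmt) (hL : 0 < L) (hκ : 0 < κ) (hlo : 0 < lo)
    (hg : ∀ k l, ContDiff ℝ ∞ fun x => g x k l) (he : ∀ x, Lo lo (g x)) (hβ : ContDiff ℝ ∞ β)
    (hc : ContDiff ℝ ∞ c) (pg : Per L g) (pβ : Per L β) (pc : Per L c) (hΦ : ContDiff ℝ ∞ Φ)
    (hd : ∀ x t, ∀ v ∈ Icc (0 : ℝ) 1, κ ≤ deriv (fun s => Φ (c x, s, v)) t) :
    APri L fun t => hom Φ g β c (Real.smoothTransition t) := by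
  have hl : 0 < min lo 1 := lt_min hlo one_pos
  have hk : 0 < min κ 1 := lt_min hκ one_pos
  obtain ⟨B, hB⟩ := (pc.comp fun q => Φ (q, 0, 1)).bdd hL
    (hΦ.continuous.comp (hc.continuous.prodMk continuous_const))
  have hB0 : 0 ≤ B := (norm_nonneg _).trans (hB 0)
  -- the `C⁰` bound
  have h0 : ∀ τ ∈ Icc (0 : ℝ) 1, ∀ f z, (hom Φ g β c τ).Sol f z → Per L f →
      ∀ x, |f x| ≤ B / min κ 1 := fun τ hτ f z h pf =>
    c0 (A := fun y => jA (gt g τ y) (d1 f y)) (ψ := fun y s => Φt Φ ((c y, τ), s, 1)) hL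
      (h.sf.of_le two_le) pf hk hB0 (fun y => ⟨_, (((he y).mix hτ).graph _).inv0 hl⟩)
      (fun y hy => by
        have := h.e1 y
        simp only [hom, sys, st, rhs_zero _ _ _ _ hy, Pi.zero_apply, zero_mul,
          Finset.sum_const_zero, add_zero] at this
        exact this) fun y s hs => by
      have h1 : Differentiable ℝ fun s => Φ (c y, s, 1) :=
        (hΦ.differentiable (by simp)).comp (by fun_prop)
      have h2 := mul_sub_le_image_sub_of_le_deriv h1
        (fun t => hd y t 1 (right_mem_Icc.2 zero_le_one))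
      have h3 := h2 hs
      have h4 := h2 (neg_nonpos.2 hs)
      have h5 := abs_le.1 (hB y)
      have h6 := mul_le_mul_of_nonneg_right (min_le_left κ 1) hs
      have h7 := mul_le_mul_of_nonneg_right (min_le_right κ 1) hs
      have h8 := mul_nonneg (sub_nonneg.2 hτ.2) hB0
      have a1 : min κ 1 * s - B ≤ Φ (c y, s, 1) := by linarith [h5.1]
      have a2 : Φ (c y, -s, 1) ≤ B - min κ 1 * s := by linarith [h5.2]
      have a3 := mul_le_mul_of_nonneg_left a1 hτ.1
      have a4 := mul_le_mul_of_nonneg_left a2 hτ.1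
      have a5 := mul_le_mul_of_nonneg_left h7 (sub_nonneg.2 hτ.2)
      simp only [Φt]
      constructor <;> linarith
  -- the family of all solutions
  let ι : Type := {q : ℝ × (E n → ℝ) × E n // q.1 ∈ Icc (0 : ℝ) 1 ∧ Per L q.2.1 ∧
    ∃ z, (hom Φ g β c q.1).Sol q.2.1 z}
  have ut : UC fun (i : ι) (_ : E n) => i.1.1 :=
    UB.const ⟨1, fun i => abs_le.2 ⟨by linarith [i.2.1.1], i.2.1.2⟩⟩
  have uG : ∀ k l, UC fun (i : ι) x => gt g i.1.1 x k l := fun k l =>
    (ut.mul ((pg.comp fun G => G k l).uc hL (hg k l))).add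
      (((UB.const' 1).sub ut).mul (UB.const' _))
  obtain ⟨C, hC⟩ := ub_ent uG 0
  have hK : IsCompact (range c) := by
    have : range c = c '' closedBall 0 (√(n * L ^ 2)) :=
      Subset.antisymm (by rintro _ ⟨x, rfl⟩; exact pc.reduce hL x) (image_subset_range _ _)
    rw [this]
    exact (isCompact_closedBall _ _).image hc.continuous
  have hF : Fam (Φt Φ) (range c ×ˢ Icc 0 1) (-(B / min κ 1)) (B / min κ 1) (min lo 1)
      (max (C * n) (min lo 1)) 1 (fun i : ι => i.1.2.2) (fun i => gt g i.1.1)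
      (fun i x => i.1.1 • β x) (fun i x => (c x, i.1.1)) fun i => i.1.2.1 :=
    ⟨hl, one_pos, fun k l => lb_of_uc (uG k l) _,
      fun i x _ => ((he x).mix i.2.1).ell (hC i x le_rfl), lb_of_uc (ut.smul (pβ.uc hL hβ)) _,
      lb_of_uc (UB.prodMk (pc.uc hL hc) ut) _, fun i x _ => ⟨mem_range_self x, i.2.1⟩,
      fun i => let ⟨_, h⟩ := i.2.2.2; h.sf.contDiffOn,
      fun i x _ => let ⟨z, h⟩ := i.2.2.2; abs_le.1 (h0 _ i.2.1 _ z h i.2.2.1 x),
      fun i x _ => let ⟨_, h⟩ := i.2.2.2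
        sys_sol hN (riem_gt hg hlo he i.2.1) hl (fun y => (he y).mix i.2.1) h x⟩
  have hU := hE n ι (P × ℝ) _ univ _ _ _ _ _ _ _ _ _ _ _ (good hκ hΦ hd)
    (hK.prod isCompact_Icc) (subset_univ _) hF
  obtain ⟨C1, hC1⟩ := hU.2 1
  obtain ⟨C2, hC2⟩ := hU.2 2
  refine ⟨max (max (B / min κ 1) 0) (max C1 C2), fun t _ f z h pf pz x => ?_⟩
  have hz : z = fun _ => 0 := eq_zero (A := fun _ => 1) hL (h.sz.of_le two_le) pz
    (fun _ => ⟨1, ell_one.sm_mono zero_le_one le_rfl⟩) fun y _ => h.e2 y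
  let i : ι := ⟨(_, f, x), σ_mem t, pf, z, h⟩
  have hx : x ∈ Bl (fun i : ι => i.1.2.2) (1 / 2) i := mem_ball_self (by norm_num)
  have b0 := h0 _ (σ_mem t) f z h pf x
  have b1 := fun k => (N346.An.abs_pd_le_iter1 f k x).trans (hC1 i x hx)
  have b2 := fun k l => (N346.An.abs_pd2_le_iter2 (h.sf.of_le two_le) k l x).trans (hC2 i x hx)
  set M := max (max (B / min κ 1) 0) (max C1 C2)
  have m0 : 0 ≤ M := (le_max_right _ _).trans (le_max_left _ _)
  subst hz
  refine max_le (norm_prod_le_iff.2 ⟨b0.trans ((le_max_left _ _).trans (le_max_left _ _)),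
    norm_prod_le_iff.2 ⟨by simpa [st] using m0, (pi_norm_le_iff_of_nonneg m0).2 fun k =>
      (b1 k).trans ((le_max_left _ _).trans (le_max_right _ _))⟩⟩)
    (norm_prod_le_iff.2 ⟨(pi_norm_le_iff_of_nonneg m0).2 fun k => by simpa [xi, pderiv] using m0,
      (pi_norm_le_iff_of_nonneg m0).2 fun k => (pi_norm_le_iff_of_nonneg m0).2 fun l =>
        (b2 k l).trans ((le_max_right _ _).trans (le_max_right _ _))⟩)

end Tor

open Tor in
/-- existence on a torus, from the estimates and the nondivergence form -/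
theorem tor_of (hN : NdStmt) (hE : EstStmt) : TorStmt := by
  intro n P _ _ _ Φ L κ g β c hL hκ hg hβ hc pg pβ pc hΦ hd
  obtain ⟨lo, hlo, he⟩ := exists_lo hg hL pg
  have hs : ∀ k l, ContDiff ℝ ∞ fun x => g x k l := fun k l =>
    contDiffOn_univ.1 (hg.contDiffOn k l)
  obtain ⟨h1, h2⟩ := adm_cont hL hlo hs he hβ hc pg pβ pc hΦ
  obtain ⟨f, z, h, pf, -⟩ := N346.An.ex2' n L hL
    (fun t => hom Φ g β c (Real.smoothTransition t)) h1
    (fun t _ => sys_per (pg.comp fun G => _ • G + _) (pβ.comp fun b => _ • b)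
      (pc.comp fun q => (q, _))) h2 (apri hE hN hL hκ hlo hs he hβ hc pg pβ pc hΦ hd)
    (by simpa only [Real.smoothTransition.zero] using sch_bound hL hlo he)
  have e : gt g 1 = g := funext fun x => by simp [gt]
  simp only [Real.smoothTransition.one, hom, e, one_smul] at h
  refine ⟨f, h.sf, pf, fun x => (sys_sol hN hg hlo he h x).trans ?_⟩
  simp [Φt]

/-- **TOR**: existence on a torus -/
theorem tor (hE : EstStmt) : TorStmt := tor_of nd hE

end Crest.Agent.N222.J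
end
end

-- ▼ part N222/J/Pen
section

/-!
# Row 222, toolbox J: the penalised local problem (typed by helper66 after helper41's sketch)
-/

set_option autoImplicit false

open Set Filter Topology Metric
open scoped ContDiff
open Crest.GeometryTopology.CoordMetric
open Crest.Agent.R247.Bo84
open Crest.Agent.N346.An (Per)

noncomputable section

namespace Crest.Agent.N222.J

namespace Pen

variable {n : ℕ} {L : ℝ} {g : MetricField n} {β : E n → Fin n → ℝ}

/-- the ball that contains a period cell -/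
abbrev cell (n : ℕ) (L : ℝ) : Set (E n) := closedBall 0 (√(n * L ^ 2))

theorem exists_max_cell {u : E n → ℝ} (h : Per L u) (hL : 0 < L) (hc : Continuous u) :
    ∃ x0 ∈ cell n L, ∀ x, u x ≤ u x0 := by
  obtain ⟨x0, hx0, h0⟩ := (isCompact_closedBall (0 : E n) (√(n * L ^ 2))).exists_isMaxOn
    ⟨0, mem_closedBall_self (Real.sqrt_nonneg _)⟩ hc.continuousOn
  refine ⟨x0, hx0, fun x => ?_⟩
  obtain ⟨y, hy, e⟩ := h.reduce hL x
  exact e ▸ h0 hy

theorem continuous_cQ (hg : IsRiemannianOn g univ) (hβ : ContDiff ℝ ∞ β) {u : E n → ℝ}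
    (hu : ContDiff ℝ ∞ u) : Continuous (cQ g β u) := by
  have hd := jd hg hu.contDiffOn
  have e : cQ g β u = fun x => N346.Id.H0 g one u x + ∑ i, β x i * N346.Id.wv g one u x i :=
    funext fun x => cQ_H0 hg hu.contDiffOn (mem_univ x)
  have h1 : Continuous (N346.Id.H0 g one u) :=
    continuous_iff_continuousAt.2 fun x => (hd.c_H0 (mem_univ x)).continuousAt
  have h2 : Continuous (N346.Id.wv g one u) :=
    continuous_iff_continuousAt.2 fun x => (hd.c_wv (mem_univ x)).continuousAt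
  have h3 := hβ.continuous
  rw [e]
  exact h1.add (continuous_finsetSum _ fun i _ => ((continuous_apply i).comp h3).mul
    ((EuclideanSpace.proj (𝕜 := ℝ) i).continuous.comp h2))

theorem exists_bd_cQ (hg : IsRiemannianOn g univ) (hβ : ContDiff ℝ ∞ β) {u : E n → ℝ}
    (hu : ContDiff ℝ ∞ u) (L : ℝ) : ∃ M, ∀ x ∈ cell n L, |cQ g β u x| ≤ M :=
  (isCompact_closedBall _ _).exists_bound_of_continuousOn (continuous_cQ hg hβ hu).continuousOn

/-- comparison on the torus -/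
theorem tor_le (hg : IsRiemannianOn g univ) (hL : 0 < L) {u ψ : E n → ℝ} (hu : ContDiff ℝ ∞ u)
    (hψ : ContDiff ℝ ∞ ψ) (pu : Per L u) (pψ : Per L ψ)
    (h : ∀ x ∈ cell n L, ψ x < u x → cW g u x = cW g ψ x → cQ g β ψ x < cQ g β u x) (x : E n) :
    u x ≤ ψ x := by
  obtain ⟨y, hy, hm⟩ := exists_max_cell (u := fun x => u x - ψ x) (pu.comp₂ pψ fun a b => a - b) hL
    (hu.continuous.sub hψ.continuous)
  by_contra hh
  obtain ⟨e1, e2⟩ := touch n g β u ψ univ hg hu.contDiffOn hψ.contDiffOn y (mem_univ y)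
    (Eventually.of_forall hm)
  linarith [h y hy (by linarith [hm x, not_le.1 hh]) e1]

section Tor

variable {P : Type} [NormedAddCommGroup P] [NormedSpace ℝ P]

theorem mono_of_deriv {Φ : P × ℝ × ℝ → ℝ} (hΦ : ContDiff ℝ ∞ Φ) {κ : ℝ} {c : P} {v : ℝ}
    (h : ∀ t, κ ≤ deriv (fun s => Φ (c, s, v)) t) {s t : ℝ} (hst : s ≤ t) :
    κ * (t - s) ≤ Φ (c, t, v) - Φ (c, s, v) :=
  mul_sub_le_image_sub_of_le_deriv (f := fun s => Φ (c, s, v))
    ((hΦ.differentiable (by simp)).comp (by fun_prop)) h hst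

/-- the penalised problem on the torus -/
theorem pen_tor [FiniteDimensional ℝ P] (hT : TorStmt) {Φ : P × ℝ × ℝ → ℝ} {κ ε : ℝ} {c : E n → P}
    {V k z : E n → ℝ} (hL : 0 < L) (hκ : 0 < κ) (hε : 0 < ε) (hg : IsRiemannianOn g univ)
    (hβ : ContDiff ℝ ∞ β) (hc : ContDiff ℝ ∞ c) (hV : ContDiff ℝ ∞ V) (hk : ContDiff ℝ ∞ k)
    (hz : ContDiff ℝ ∞ z) (pg : Per L g) (pβ : Per L β) (pc : Per L c) (pV : Per L V)
    (pk : Per L k) (pz : Per L z) (hΦ : ContDiff ℝ ∞ Φ)
    (hd : ∀ x t, ∀ v ∈ Icc (0 : ℝ) 1, κ ≤ deriv (fun s => Φ (c x, s, v)) t)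
    (k0 : ∀ x, 0 ≤ k x) (z0 : ∀ x, 0 ≤ z x) (hkz : ∀ x, (∀ᶠ y in 𝓝 x, z y = 1) ∨ k x = 1) :
    ∃ (w : E n → ℝ) (K : ℝ), 0 ≤ K ∧ ContDiff ℝ ∞ w ∧
      (∀ x, cQ g β w x = Φ (c x, w x, (cW g w x)⁻¹) + K * k x * (w x - V x)) ∧
      ∀ x, z x = 0 → |w x - V x| ≤ ε := by
  have h0 : (0 : E n) ∈ cell n L := mem_closedBall_self (Real.sqrt_nonneg _)
  obtain ⟨M0, hM0⟩ := exists_bd_cQ hg hβ hV L
  obtain ⟨M1, hM1⟩ : ∃ M, ∀ y ∈ cell n L ×ˢ Icc (0 : ℝ) 1, |Φ (c y.1, V y.1, y.2)| ≤ M := by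
    have h1 := hc.continuous
    have h2 := hV.continuous
    exact ((isCompact_closedBall _ _).prod isCompact_Icc).exists_bound_of_continuousOn
      (hΦ.continuous.comp (by fun_prop)).continuousOn
  have M00 : 0 ≤ M0 := (abs_nonneg _).trans (hM0 0 h0)
  have M10 : 0 ≤ M1 := (abs_nonneg _).trans (hM1 (0, 0) ⟨h0, left_mem_Icc.2 zero_le_one⟩)
  obtain ⟨A, hA⟩ : ∃ A, κ * A = M0 + M1 := ⟨(M0 + M1) / κ, by field_simp⟩
  have A0 : 0 ≤ A := by
    by_contra hh
    nlinarith [not_le.1 hh]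
  have sp : ContDiff ℝ ∞ fun x => V x + (ε + A * z x) := by fun_prop
  have sm : ContDiff ℝ ∞ fun x => V x + -(ε + A * z x) := by fun_prop
  obtain ⟨Mp, hMp⟩ := exists_bd_cQ hg hβ sp L
  obtain ⟨Mm, hMm⟩ := exists_bd_cQ hg hβ sm L
  have Mp0 : 0 ≤ Mp := (abs_nonneg _).trans (hMp 0 h0)
  have Mm0 : 0 ≤ Mm := (abs_nonneg _).trans (hMm 0 h0)
  obtain ⟨K, hK⟩ : ∃ K, K * ε = Mp + Mm + M1 := ⟨(Mp + Mm + M1) / ε, by field_simp⟩
  have K0 : 0 ≤ K := by
    by_contra hh
    nlinarith [not_le.1 hh]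
  obtain ⟨w, hw, pw, hQ⟩ := hT n (P × ℝ × ℝ)
    (fun y => Φ (y.1.1, y.2.1, y.2.2) + y.1.2.1 * (y.2.1 - y.1.2.2)) L κ g β
    (fun x => (c x, K * k x, V x)) hL hκ hg hβ (by fun_prop) pg pβ
    (pc.prodMk ((pk.comp fun t => K * t).prodMk pV))
    ((hΦ.comp (by fun_prop)).add (by fun_prop)) (fun x t v hv => by
      have h1 : DifferentiableAt ℝ (fun s => Φ (c x, s, v)) t :=
        ((hΦ.differentiable (by simp)).comp (by fun_prop) : Differentiable ℝ
          fun s => Φ (c x, s, v)) t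
      have h2 : HasDerivAt (fun s => K * k x * (s - V x)) (K * k x) t := by
        simpa using ((hasDerivAt_id t).sub_const (V x)).const_mul (K * k x)
      have h3 := (h1.hasDerivAt.fun_add h2).deriv
      simp only
      rw [h3]
      linarith [hd x t v hv, mul_nonneg K0 (k0 x)])
  have hQ' : ∀ x, cQ g β w x = Φ (c x, w x, (cW g w x)⁻¹) + K * k x * (w x - V x) := hQ
  have hv : ∀ x, (cW g w x)⁻¹ ∈ Icc (0 : ℝ) 1 := fun x => cW_inv_mem hg (mem_univ x) w
  have up : ∀ x, w x ≤ V x + (ε + A * z x) := by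
    refine tor_le (β := β) hg hL hw sp pw (pV.comp₂ pz fun a b => a + (ε + A * b))
      fun x hx hlt _ => ?_
    have hAz := mul_nonneg A0 (z0 x)
    have hKk := mul_nonneg K0 (k0 x)
    have a1 := mono_of_deriv hΦ (fun t => hd x t _ (hv x)) (s := V x) (t := w x) (by linarith)
    have a2 := (abs_le.1 (hM1 (x, (cW g w x)⁻¹) ⟨hx, hv x⟩)).1
    have a3 : κ * (ε + A * z x) < κ * (w x - V x) := mul_lt_mul_of_pos_left (by linarith) hκ
    have a4 : 0 ≤ K * k x * (w x - V x) := mul_nonneg hKk (by linarith)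
    have a5 := mul_pos hκ hε
    simp only at a2
    rw [hQ' x]
    rcases hkz x with h | h
    · rw [cQ_congr (φ := fun y => V y + (ε + A)) (h.mono fun y hy => by simp only [hy, mul_one]),
        cQ_add_const]
      rw [h.self_of_nhds] at a3
      nlinarith [(abs_le.1 (hM0 x hx)).2]
    · have a6 : K * ε ≤ K * (w x - V x) := mul_le_mul_of_nonneg_left (by linarith) K0
      have a7 := mul_nonneg hκ.le hAz
      rw [h]
      nlinarith [(abs_le.1 (hMp x hx)).2]
  have lo : ∀ x, V x + -(ε + A * z x) ≤ w x := by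
    refine tor_le (β := β) hg hL sm hw (pV.comp₂ pz fun a b => a + -(ε + A * b)) pw
      fun x hx hlt _ => ?_
    have hAz := mul_nonneg A0 (z0 x)
    have hKk := mul_nonneg K0 (k0 x)
    have a1 := mono_of_deriv hΦ (fun t => hd x t _ (hv x)) (s := w x) (t := V x) (by linarith)
    have a2 := (abs_le.1 (hM1 (x, (cW g w x)⁻¹) ⟨hx, hv x⟩)).2
    have a3 : κ * (ε + A * z x) < κ * (V x - w x) := mul_lt_mul_of_pos_left (by linarith) hκ
    have a4 : 0 ≤ K * k x * (V x - w x) := mul_nonneg hKk (by linarith)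
    have a5 := mul_pos hκ hε
    simp only at a2
    rw [hQ' x]
    rcases hkz x with h | h
    · rw [cQ_congr (u := fun y => V y + -(ε + A * z y)) (φ := fun y => V y + -(ε + A))
        (h.mono fun y hy => by simp only [hy, mul_one]), cQ_add_const]
      rw [h.self_of_nhds] at a3
      nlinarith [(abs_le.1 (hM0 x hx)).1]
    · have a6 : K * ε ≤ K * (V x - w x) := mul_le_mul_of_nonneg_left (by linarith) K0
      have a7 := mul_nonneg hκ.le hAz
      rw [h]
      nlinarith [(abs_le.1 (hMm x hx)).1]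
  refine ⟨w, K, K0, hw, hQ', fun x hx => abs_le.2 ⟨?_, ?_⟩⟩
  · have := lo x
    rw [hx] at this
    linarith
  · have := up x
    rw [hx] at this
    linarith

end Tor

/-- a smooth retraction of the line into an open interval -/
theorem exists_sigma {I : Set ℝ} (hI : IsOpen I) (ho : I.OrdConnected) {a b : ℝ} (hab : a ≤ b)
    (h : Icc a b ⊆ I) : ∃ (σ : ℝ → ℝ) (a' b' : ℝ), ContDiff ℝ ∞ σ ∧ Icc a' b' ⊆ I ∧
      (∀ t, σ t ∈ Icc a' b') ∧ (∀ t ∈ Icc a b, σ t = t) ∧ ∀ t, deriv σ t ∈ Icc (0 : ℝ) 1 := by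
  obtain ⟨δ1, h1, H1⟩ := Metric.isOpen_iff.1 hI a (h (left_mem_Icc.2 hab))
  obtain ⟨δ2, h2, H2⟩ := Metric.isOpen_iff.1 hI b (h (right_mem_Icc.2 hab))
  obtain ⟨δ, hδ, d1, d2⟩ : ∃ δ, 0 < δ ∧ δ < δ1 ∧ δ < δ2 :=
    ⟨min δ1 δ2 / 2, by positivity, by linarith [min_le_left δ1 δ2], by linarith [min_le_right δ1 δ2]⟩
  have ha : a - δ ∈ I := H1 (by rw [mem_ball, Real.dist_eq, abs_lt]; constructor <;> linarith)
  have hb : b + δ ∈ I := H2 (by rw [mem_ball, Real.dist_eq, abs_lt]; constructor <;> linarith)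
  let χ : ContDiffBump ((a + b) / 2) :=
    ⟨(b - a) / 2 + δ / 2, (b - a) / 2 + δ, by linarith, by linarith⟩
  have hc : Continuous χ := χ.continuous
  have hd : ∀ t, HasDerivAt (fun t => a + ∫ s in a..t, χ s) (χ t) t := fun t =>
    (intervalIntegral.integral_hasDerivAt_right (hc.intervalIntegrable _ _)
      (hc.stronglyMeasurableAtFilter _ _) hc.continuousAt).const_add a
  obtain ⟨σ, hσ, σa⟩ : ∃ σ : ℝ → ℝ, (∀ t, HasDerivAt σ (χ t) t) ∧ σ a = a := ⟨_, hd, by simp⟩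
  have df : Differentiable ℝ σ := fun t => (hσ t).differentiableAt
  have e : deriv σ = χ := funext fun t => (hσ t).deriv
  have hτ : ∀ t, HasDerivAt (fun t => t - σ t) (1 - χ t) t := fun t =>
    (hasDerivAt_id t).fun_sub (hσ t)
  have dτ : Differentiable ℝ fun t => t - σ t := fun t => (hτ t).differentiableAt
  have m1 : Monotone σ := monotone_of_deriv_nonneg df fun t => by rw [e]; exact χ.nonneg
  have m2 : Monotone fun t => t - σ t := monotone_of_deriv_nonneg dτ fun t => by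
    rw [(hτ t).deriv]; linarith [χ.le_one (x := t)]
  have a1 : AntitoneOn σ (Ici (b + δ)) :=
    antitoneOn_of_deriv_nonpos (convex_Ici _) df.continuous.continuousOn df.differentiableOn
      fun t ht => by
        have ht' : b + δ ≤ t := mem_Ici.1 (interior_subset ht)
        rw [e, χ.zero_of_le_dist (by
          rw [Real.dist_eq]; exact le_abs.2 (Or.inl (by simp only [χ]; linarith)))]
  have a2 : AntitoneOn σ (Iic (a - δ)) :=
    antitoneOn_of_deriv_nonpos (convex_Iic _) df.continuous.continuousOn df.differentiableOn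
      fun t ht => by
        have ht' : t ≤ a - δ := mem_Iic.1 (interior_subset ht)
        rw [e, χ.zero_of_le_dist (by
          rw [Real.dist_eq]; exact le_abs.2 (Or.inr (by simp only [χ]; linarith)))]
  have a3 : AntitoneOn (fun t => t - σ t) (Icc a b) :=
    antitoneOn_of_deriv_nonpos (convex_Icc _ _) dτ.continuous.continuousOn dτ.differentiableOn
      fun t ht => by
        have ht' : t ∈ Icc a b := interior_subset ht
        rw [(hτ t).deriv, χ.one_of_mem_closedBall (by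
          rw [mem_closedBall, Real.dist_eq, abs_le]
          simp only [χ]
          constructor <;> linarith [ht'.1, ht'.2]), sub_self]
  refine ⟨σ, a - δ, b + δ, contDiff_infty_iff_deriv.2 ⟨df, e ▸ χ.contDiff⟩, ho.out ha hb,
    fun t => ⟨?_, ?_⟩, fun t ht => ?_, fun t => by rw [e]; exact ⟨χ.nonneg, χ.le_one⟩⟩
  · have b1 := m2 (show a - δ ≤ a by linarith)
    simp only [σa] at b1
    rcases le_total t (a - δ) with hh | hh
    · linarith [a2 hh self_mem_Iic hh]
    · linarith [m1 hh]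
  · have b1 := m2 (show a ≤ b + δ by linarith)
    simp only [σa] at b1
    rcases le_total t (b + δ) with hh | hh
    · linarith [m1 hh]
    · linarith [a1 self_mem_Ici hh hh]
  · have b1 := m2 ht.1
    have b2 := a3 (left_mem_Icc.2 hab) ht ht.1
    simp only [σa] at b1 b2
    linarith

/-- a globally smooth, uniformly increasing modification of `Φ` -/
theorem exists_ext {P : Type} [NormedAddCommGroup P] [NormedSpace ℝ P] {Φ : P × ℝ × ℝ → ℝ}
    {I : Set ℝ} {K : Set P} (h : Good Φ I K) (hK : IsCompact K) {a b : ℝ} (hab : a ≤ b)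
    (hI : Icc a b ⊆ I) : ∃ (Ψ : P × ℝ × ℝ → ℝ) (κ : ℝ), 0 < κ ∧ ContDiff ℝ ∞ Ψ ∧
      (∀ c ∈ K, ∀ t, ∀ v ∈ Icc (0 : ℝ) 1, κ ≤ deriv (fun s => Ψ (c, s, v)) t) ∧
      ∀ c, ∀ t ∈ Icc a b, ∀ v, Ψ (c, t, v) = Φ (c, t, v) := by
  obtain ⟨σ, a', b', hσ, hI', hr, hid, hd⟩ := exists_sigma h.isOpen h.ord hab hI
  have hD : ∀ c, ∀ t ∈ I, ∀ v, HasDerivAt (fun s => Φ (c, s, v))
      (fderiv ℝ Φ (c, t, v) (0, 1, 0)) t := fun c t ht v =>
    ((h.at c ht v).differentiableAt (by simp)).hasFDerivAt.comp_hasDerivAt t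
      ((hasDerivAt_const t c).prodMk ((hasDerivAt_id t).prodMk (hasDerivAt_const t v)))
  obtain ⟨κ, hκ, H⟩ := (hK.prod ((isCompact_Icc (a := a') (b := b')).prod
    (isCompact_Icc (a := (0 : ℝ)) (b := 1)))).exists_forall_le'
    (f := fun z => fderiv ℝ Φ z (0, 1, 0)) (a := 0)
    (((h.sm.continuousOn_fderiv_of_isOpen h.isOpen' (by simp)).clm_apply continuousOn_const).mono
      fun z hz => ⟨mem_univ _, hI' hz.2.1, mem_univ _⟩) fun z hz => by
      have := h.pos z.1 hz.1 z.2.1 (hI' hz.2.1) z.2.2 hz.2.2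
      rwa [(hD z.1 z.2.1 (hI' hz.2.1) z.2.2).deriv] at this
  refine ⟨fun z => Φ (z.1, σ z.2.1, z.2.2) + (z.2.1 - σ z.2.1), min κ 1, lt_min hκ one_pos,
    (h.sm.comp_contDiff (f := fun z : P × ℝ × ℝ => (z.1, σ z.2.1, z.2.2)) (by fun_prop)
      fun z => ⟨mem_univ _, hI' (hr _), mem_univ _⟩).add (by fun_prop), fun c hc t v hv => ?_,
    fun c t ht v => by simp only [hid t ht, sub_self, add_zero]⟩
  have h1 := (hσ.differentiable (by simp) t).hasDerivAt
  have h2 := (((hD c (σ t) (hI' (hr t)) v).comp t h1).fun_add ((hasDerivAt_id t).fun_sub h1)).deriv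
  have h3 := H (c, σ t, v) ⟨hc, hr t, hv⟩
  refine le_of_le_of_eq ?_ h2.symm
  nlinarith [min_le_left κ 1, min_le_right κ 1, (hd t).1, (hd t).2]

end Pen

open Pen in
theorem pen (hT : TorStmt) (hR : RhoStmt) : PenStmt := by
  intro n P _ _ _ Φ I U g β c x0 r a b ε v hΦ hg hβ hc hr hU hab hI hε hv
  obtain ⟨L, ρ, hL, hρ, pρ, hid, hm⟩ := hR n x0 (7 * r / 2) (4 * r) (by positivity) (by linarith)
  have hmU : ∀ x, ρ x ∈ U := fun x => hU (hm x)
  obtain ⟨Ψ, κ, hκ, hΨ, hd, hΨΦ⟩ := exists_ext (hΦ.mono (image_mono hU))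
    ((isCompact_closedBall x0 (4 * r)).image_of_continuousOn (hc.continuousOn.mono hU)) hab hI
  obtain ⟨vt, hvt, happ, -⟩ := (hv.comp_continuous hρ.continuous hmU).exists_contDiff_approx ⊤
    (ε := fun _ => ε) continuous_const fun _ => hε
  let χ1 : ContDiffBump x0 := ⟨r, 5 * r / 4, hr, by linarith⟩
  let χ2 : ContDiffBump x0 := ⟨4 * r / 3, 3 * r / 2, by positivity, by linarith⟩
  have hg' : IsRiemannianOn (fun x => g (ρ x)) univ :=
    ⟨isOpen_univ, fun i j => ((hg.contDiffOn i j).comp_contDiff hρ hmU).contDiffOn,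
      fun x _ => hg.posDef _ (hmU x)⟩
  obtain ⟨w, K, K0, hw, hQ, hz⟩ := pen_tor hT (g := fun x => g (ρ x)) (β := fun x => β (ρ x))
    (c := fun x => c (ρ x)) (V := fun x => vt (ρ x)) (k := fun x => 1 - χ1 (ρ x))
    (z := fun x => χ2 (ρ x)) hL hκ hε hg' (hβ.comp_contDiff hρ hmU) (hc.comp_contDiff hρ hmU)
    (hvt.comp hρ) (contDiff_const.sub (χ1.contDiff.comp hρ)) (χ2.contDiff.comp hρ) (pρ.comp g)
    (pρ.comp β) (pρ.comp c) (pρ.comp vt) (pρ.comp fun y => 1 - χ1 y) (pρ.comp χ2) hΨ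
    (fun x => hd _ (mem_image_of_mem c (hm x))) (fun x => sub_nonneg.2 χ1.le_one)
    (fun x => χ2.nonneg) fun x => by
      by_cases hx : ρ x ∈ ball x0 (4 * r / 3)
      · left
        filter_upwards [hρ.continuous.continuousAt.eventually (isOpen_ball.mem_nhds hx)] with y hy
        exact χ2.one_of_mem_closedBall (ball_subset_closedBall hy)
      · right
        rw [χ1.zero_of_le_dist (by
          rw [mem_ball, not_lt] at hx; simp only [χ1]; linarith), sub_zero]
  refine ⟨w, hw, fun x hx => ?_⟩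
  have hx' : x ∈ ball x0 (7 * r / 2) := closedBall_subset_ball (by linarith) hx
  have e0 := hid x hx'
  have e1 : (fun x => g (ρ x)) =ᶠ[𝓝 x] g := by
    filter_upwards [isOpen_ball.mem_nhds hx'] with y hy
    rw [hid y hy]
  have hQx := hQ x
  have hzx := hz x
  rw [cQ_congr_g e1 (β' := β) (by simp only [e0]), cW_congr_g e1.eq_of_nhds] at hQx
  simp only [e0] at hQx hzx
  have hxc : x ∈ closedBall x0 (4 * r) := closedBall_subset_closedBall (by linarith) hx
  have hW := cW_inv_mem hg (hU hxc) w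
  have hmono : ∀ {s t : ℝ}, s ≤ t →
      κ * (t - s) ≤ Ψ (c x, t, (cW g w x)⁻¹) - Ψ (c x, s, (cW g w x)⁻¹) := fun hst =>
    mono_of_deriv hΨ (fun t => hd _ (mem_image_of_mem c hxc) t _ hW) hst
  have hap := happ x
  rw [Function.comp, e0, Real.dist_eq, abs_lt] at hap
  have hKk : 0 ≤ K * (1 - χ1 x) := mul_nonneg K0 (sub_nonneg.2 χ1.le_one)
  refine ⟨fun t ht h1 h2 => ?_, fun t ht h1 h2 => ?_, fun h1 h2 => ?_, fun h1 => ?_⟩
  · have a1 := hmono h1.le
    have a2 := mul_pos hκ (sub_pos.2 h1)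
    have a3 := mul_nonneg hKk (show 0 ≤ w x - vt x by linarith [hap.2])
    rw [hQx, ← hΨΦ _ t ht]
    linarith
  · have a1 := hmono h1.le
    have a2 := mul_pos hκ (sub_pos.2 h1)
    have a3 := mul_nonneg hKk (show 0 ≤ vt x - w x by linarith [hap.1])
    rw [hQx, ← hΨΦ _ t ht]
    linarith
  · rw [hQx, χ1.one_of_mem_closedBall (ball_subset_closedBall h1), hΨΦ _ _ h2]
    ring
  · have := abs_le.1 (hzx (χ2.zero_of_le_dist (by
      rw [mem_ball, not_lt] at h1; simp only [χ2]; linarith)))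
    exact abs_le.2 ⟨by linarith [hap.1, this.1], by linarith [hap.2, this.2]⟩

end Crest.Agent.N222.J
end
end

-- ▼ part N222/J/Cont
section

/-!
# Row 222, toolbox J (helper29): continuity of the jets of the solution in a parameter
-/

set_option autoImplicit false

open Set Filter Topology Metric
open scoped ContDiff
open Crest.GeometryTopology.CoordMetric
open Crest.Agent.R247.Bo84
open Crest.Agent.R238 (Ell)

noncomputable section

namespace Crest.Agent.N222.J

variable {n : ℕ} {X : Type} [TopologicalSpace X] {A : Atl n X} {P : Type} [NormedAddCommGroup P]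
  [NormedSpace ℝ P] {Λ : Type} [TopologicalSpace Λ] {J : Λ → JOp n X} {Φ : P × ℝ × ℝ → ℝ}
  {I : Set ℝ} {C : Set P} {c : Λ → X → P} {Ω : Set X}

/-- `Q` and `1/W` of a jointly continuous family are jointly continuous -/
theorem contAt_QW (hΩ : IsOpen Ω) (hJ : ∀ l, (J l).On A Ω)
    (hG : ∀ p i j, CJ (A.tg p Ω) fun l x => (J l).G p x i j)
    (hβ : ∀ p, CJ (A.tg p Ω) fun l => (J l).β p) {w : Λ → X → ℝ} (hw : A.JC Ω w) {p : X}
    (hp : p ∈ Ω) (l : Λ) : ContinuousAt (fun z : Λ × X => (J z.1).Q (w z.1) z.2) (l, p) ∧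
      ContinuousAt (fun z : Λ × X => ((J z.1).W (w z.1) z.2)⁻¹) (l, p) := by
  have hU := A.isOpen_tg hΩ p
  have hr : ∀ l, IsRiemannianOn ((J l).G p) (A.tg p Ω) := fun l => (hJ l).riem p
  have e := fun l q hq hs => (hJ l).chart p q hq hs (w l) ((hw.smOn l).smN hΩ hq)
  exact ⟨Atl.continuousAt_of_ch (w := fun l q => (J l).Q (w l) q) hΩ hp
      (CJ.cQ hU hr (hG p) (hβ p) (hw p)).continuousOn (fun l q hq hs => (e l q hq hs).1) l,
    Atl.continuousAt_of_ch (w := fun l q => ((J l).W (w l) q)⁻¹)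
      (w' := fun l x => (cW ((J l).G p) (w l ∘ (A.ch p).symm) x)⁻¹) hΩ hp
      (CJ.cW_inv hU hr (hG p) (hw p)).continuousOn (fun l q hq hs => by rw [(e l q hq hs).2]) l⟩

/-- a solution for `l0`, shifted by a small constant, is a strict barrier for `l` near `l0` -/
theorem strict_near (hΩ : IsOpen Ω) (hJ : ∀ l, (J l).On A Ω) (hΦ : Good Φ I C)
    (hC : ∀ l, ∀ p ∈ Ω, c l p ∈ C) (hG : ∀ p i j, CJ (A.tg p Ω) fun l x => (J l).G p x i j)
    (hβ : ∀ p, CJ (A.tg p Ω) fun l => (J l).β p) (hc : A.JC Ω c) {l0 : Λ} {w : X → ℝ}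
    (hw : Solves A (J l0) Φ (c l0) Ω w) (hI : ∀ p ∈ Ω, w p ∈ I) {ε : ℝ} (hε : 0 < ε) {K : Set X}
    (hK : IsCompact K) (hKΩ : K ⊆ Ω) : ∀ᶠ l in 𝓝 l0, ∀ q ∈ K, ∀ t ∈ I,
      (w q + ε ≤ t → (J l).Q w q < Φ (c l q, t, ((J l).W w q)⁻¹)) ∧
      (t ≤ w q - ε → Φ (c l q, t, ((J l).W w q)⁻¹) < (J l).Q w q) := by
  refine hK.eventually_forall_of_forall_eventually fun p hp => ?_
  have hp := hKΩ hp
  obtain ⟨δ, hδ, hb⟩ := Metric.isOpen_iff.1 hΦ.isOpen _ (hI p hp)
  obtain ⟨hQ, hW⟩ := contAt_QW hΩ hJ hG hβ (hw.1.jc hΩ) hp l0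
  have hwc : ContinuousAt (fun z : Λ × X => w z.2) (l0, p) := (hw.1.jc hΩ).continuousAt hΩ hp l0
  have hm : ∀ s : ℝ, |s| < δ → w p + s ∈ I := fun s hs => hb (by simpa [Real.dist_eq] using hs)
  have hcont : ∀ s : ℝ, |s| < δ → ContinuousAt
      (fun z : Λ × X => Φ (c z.1 z.2, w z.2 + s, ((J z.1).W w z.2)⁻¹)) (l0, p) := fun s hs =>
    ContinuousAt.comp (f := fun z : Λ × X => (c z.1 z.2, w z.2 + s, ((J z.1).W w z.2)⁻¹))
      (hΦ.at _ (hm s hs) _).continuousAt
      ((hc.continuousAt hΩ hp l0).prodMk ((hwc.add continuousAt_const).prodMk hW))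
  have hmem : ∀ s : ℝ, |s| < δ → ∀ᶠ z : Λ × X in 𝓝 (l0, p), w z.2 + s ∈ I := fun s hs =>
    (hwc.add continuousAt_const).eventually (hΦ.isOpen.mem_nhds (hm s hs))
  set η := min ε (δ / 2) with hη
  have hη0 : 0 < η := lt_min hε (half_pos hδ)
  have hηε : η ≤ ε := min_le_left _ _
  have h1 : |η| < δ := by rw [abs_of_pos hη0]; exact (min_le_right _ _).trans_lt (half_lt_self hδ)
  have h2 : |-η| < δ := by rwa [abs_neg]
  have hs := hΦ.strictMonoOn (hC l0 p hp) ((hJ l0).inv_mem hp (hw.1.smN hΩ hp))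
  have hΩ' : ∀ᶠ z : Λ × X in 𝓝 (l0, p), z.2 ∈ Ω := continuousAt_snd.eventually (hΩ.mem_nhds hp)
  filter_upwards [hQ.eventually_lt (hcont η h1)
      ((hw.2 p hp).trans_lt (hs (hI p hp) (hm η h1) (by linarith))),
    (hcont (-η) h2).eventually_lt hQ
      ((hs (hm (-η) h2) (hI p hp) (by linarith)).trans_eq (hw.2 p hp).symm),
    hmem η h1, hmem (-η) h2, hΩ'] with z e1 e2 m1 m2 hz t ht
  have hs := (hΦ.strictMonoOn (hC z.1 z.2 hz)
    ((hJ z.1).inv_mem hz (hw.1.smN hΩ hz))).monotoneOn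
  exact ⟨fun h => e1.trans_le (hs m1 ht (by linarith)),
    fun h => (hs ht m2 (by linarith)).trans_lt e2⟩

/-- a function small off a compact set and large somewhere has a large local maximum -/
theorem exists_big_max (hΩ : IsOpen Ω) {f : X → ℝ} (hf : ContinuousOn f Ω) {K : Set X}
    (hK : IsCompact K) (hKΩ : K ⊆ Ω) {ε : ℝ} (h : ∀ p ∈ Ω \ K, f p ≤ ε) {p : X} (hp : p ∈ Ω)
    (h0 : ε < f p) : ∃ q ∈ K, ε < f q ∧ IsLocalMax f q := by
  have hpK : p ∈ K := by
    by_contra hh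
    linarith [h p ⟨hp, hh⟩]
  obtain ⟨q, hq, hm⟩ := hK.exists_isMaxOn ⟨p, hpK⟩ (hf.mono hKΩ)
  have h1 : f p ≤ f q := hm hpK
  refine ⟨q, hq, by linarith, ?_⟩
  filter_upwards [hΩ.mem_nhds (hKΩ hq)] with y hy
  by_cases hyK : y ∈ K
  · exact hm hyK
  · linarith [h y ⟨hy, hyK⟩]

/-- Step 1: uniform convergence -/
theorem cont_zero (hΩ : IsOpen Ω) (hJ : ∀ l, (J l).On A Ω) (hΦ : Good Φ I C)
    (hC : ∀ l, ∀ p ∈ Ω, c l p ∈ C) (hG : ∀ p i j, CJ (A.tg p Ω) fun l x => (J l).G p x i j)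
    (hβ : ∀ p, CJ (A.tg p Ω) fun l => (J l).β p) (hc : A.JC Ω c) {u : Λ → X → ℝ}
    (hu : ∀ l, Solves A (J l) Φ (c l) Ω (u l)) (hI : ∀ l, ∀ p ∈ Ω, u l p ∈ I) {l0 : Λ}
    {ε : ℝ} (hε : 0 < ε)
    (h : ∃ K ⊆ Ω, IsCompact K ∧ ∀ᶠ l in 𝓝 l0, ∀ p ∈ Ω \ K, |u l p - u l0 p| ≤ ε) :
    ∀ᶠ l in 𝓝 l0, ∀ p ∈ Ω, |u l p - u l0 p| ≤ ε := by
  obtain ⟨K, hKΩ, hK, h⟩ := h
  filter_upwards [h, strict_near hΩ hJ hΦ hC hG hβ hc (hu l0) (hI l0) hε hK hKΩ] with l h1 h2 p hp
  have c0 := (hu l0).1.continuousOn hΩ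
  have c1 := (hu l).1.continuousOn hΩ
  rw [abs_le]
  constructor
  · by_contra hh
    obtain ⟨q, hq, h0, hm⟩ := exists_big_max (f := fun q => u l0 q - u l q) hΩ (c0.sub c1) hK hKΩ
      (ε := ε) (fun q hq => by linarith [(abs_le.1 (h1 q hq)).1]) hp (by linarith [not_le.1 hh])
    obtain ⟨e1, e2⟩ := mtouch hΩ (hJ l) (hKΩ hq) ((hu l0).1.smN hΩ (hKΩ hq))
      ((hu l).1.smN hΩ (hKΩ hq)) hm
    have := (h2 q hq _ (hI l q (hKΩ hq))).2 (by linarith)
    rw [e1, ← (hu l).2 q (hKΩ hq)] at this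
    linarith
  · by_contra hh
    obtain ⟨q, hq, h0, hm⟩ := exists_big_max (f := fun q => u l q - u l0 q) hΩ (c1.sub c0) hK hKΩ
      (ε := ε) (fun q hq => (abs_le.1 (h1 q hq)).2) hp (not_le.1 hh)
    obtain ⟨e1, e2⟩ := mtouch hΩ (hJ l) (hKΩ hq) ((hu l).1.smN hΩ (hKΩ hq))
      ((hu l0).1.smN hΩ (hKΩ hq)) hm
    have := (h2 q hq _ (hI l q (hKΩ hq))).1 (by linarith)
    rw [← e1, ← (hu l).2 q (hKΩ hq)] at this
    linarith

/-- Step 2, in coordinates: locally uniform convergence of solutions gives continuity of jets -/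
theorem cj_of_zero (hE : EstStmt) (hA : ArzStmt) [FiniteDimensional ℝ P]
    [FirstCountableTopology Λ] {U : Set (E n)} (hU : IsOpen U) {γ : Λ → MetricField n}
    {β : Λ → E n → Fin n → ℝ} {c : Λ → E n → P} {u : Λ → E n → ℝ} (hΦ : Good Φ I C)
    (hγ : ∀ l, IsRiemannianOn (γ l) U) (hG : ∀ i j, CJ U fun l x => γ l x i j) (hβ : CJ U β)
    (hc : CJ U c) (hC : ∀ l, ∀ x ∈ U, c l x ∈ C) (hs : ∀ l, ContDiffOn ℝ ∞ (u l) U)
    (hI : ∀ l, ∀ x ∈ U, u l x ∈ I)
    (he : ∀ l, ∀ x ∈ U, cQ (γ l) (β l) (u l) x = Φ (c l x, u l x, (cW (γ l) (u l) x)⁻¹))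
    (h0 : ∀ l0, ∀ x ∈ U, ∀ ε > 0, ∀ᶠ z : Λ × E n in 𝓝 (l0, x), |u z.1 z.2 - u l0 x| ≤ ε) :
    CJ U u := by
  refine ⟨hs, fun k z0 hz0 => ContinuousAt.continuousWithinAt ?_⟩
  obtain ⟨l0, y0⟩ := z0
  have hy0 : y0 ∈ U := hz0.2
  obtain ⟨δ, hδ, hb⟩ := Metric.nhds_basis_closedBall.mem_iff.1 (hΦ.isOpen.mem_nhds (hI l0 y0 hy0))
  rw [Real.closedBall_eq_Icc] at hb
  obtain ⟨N, hN, S, hS, hNS⟩ := mem_nhds_prod_iff.1 (h0 l0 y0 hy0 δ hδ)
  obtain ⟨r, hr, hrS⟩ := Metric.nhds_basis_closedBall.mem_iff.1 (inter_mem hS (hU.mem_nhds hy0))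
  have hrU : closedBall y0 r ⊆ U := hrS.trans inter_subset_right
  refine tendsto_iff_seq_tendsto.2 fun z hz => ?_
  have hz1 : Tendsto (fun j => (z j).1) atTop (𝓝 l0) := (continuous_fst.tendsto _).comp hz
  obtain ⟨m, hm⟩ := eventually_atTop.1 (hz1.eventually hN)
  rw [← tendsto_add_atTop_iff_nat m]
  have hl : Tendsto (fun j => (z (j + m)).1) atTop (𝓝 l0) := (tendsto_add_atTop_iff_nat m).2 hz1
  have hy : Tendsto (fun j => (z (j + m)).2) atTop (𝓝 y0) :=
    (tendsto_add_atTop_iff_nat m).2 ((continuous_snd.tendsto _).comp hz)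
  set e : ℕ → Λ := fun j => (z (j + m)).1 with he'
  have hL := hl.isCompact_insert_range.prod (isCompact_closedBall y0 r)
  have hsub : insert l0 (range e) ×ˢ closedBall y0 r ⊆ univ ×ˢ U := prod_mono (subset_univ _) hrU
  have hmem : ∀ j, ∀ x ∈ ball y0 r, (e j, x) ∈ insert l0 (range e) ×ˢ closedBall y0 r :=
    fun j x hx => ⟨mem_insert_of_mem _ (mem_range_self j), ball_subset_closedBall hx⟩
  have hbU : ∀ x ∈ ball y0 r, x ∈ U := fun x hx => hrU (ball_subset_closedBall hx)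
  obtain ⟨lo, hi, hlo, hell⟩ := exists_ell hL (A := fun w : Λ × E n => γ w.1 w.2)
    (fun i j => (hG i j).continuousOn.mono hsub) fun w hw => (hγ w.1).posDef _ (hsub hw).2
  have hF : Fam Φ ((fun w : Λ × E n => c w.1 w.2) '' (insert l0 (range e) ×ˢ closedBall y0 r))
      (u l0 y0 - δ) (u l0 y0 + δ) lo hi r (fun _ : ℕ => y0) (fun j => γ (e j)) (fun j => β (e j))
      (fun j => c (e j)) fun j => u (e j) :=
    ⟨hlo, hr, fun i j => (hG i j).lb hl hrU, fun j x hx => hell _ (hmem j x hx), hβ.lb hl hrU,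
      hc.lb hl hrU, fun j x hx => mem_image_of_mem _ (hmem j x hx),
      fun j => (hs _).mono hbU, fun j x hx => by
        have h1 : |u (e j) x - u l0 y0| ≤ δ := hNS (a := (e j, x))
          ⟨hm _ (Nat.le_add_left _ _), (hrS (ball_subset_closedBall hx)).1⟩
        constructor <;> linarith [(abs_le.1 h1).1, (abs_le.1 h1).2],
      fun j x hx => he _ x (hbU x hx)⟩
  have hB := hE n ℕ P Φ I _ _ _ lo hi r _ _ _ _ _
    (hΦ.mono (by rintro _ ⟨w, hw, rfl⟩; exact hC _ _ (hsub hw).2))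
    (hL.image_of_continuousOn (hc.continuousOn.mono hsub)) hb hF
  have hr4 : ball y0 (r / 2 / 2) ⊆ ball y0 r := ball_subset_ball (by linarith)
  obtain ⟨-, hT⟩ := (hA n ℝ y0 (r / 2) (fun j => u (e j)) hB).2 (u l0) fun x hx => by
    refine Metric.tendsto_nhds.2 fun ε hε => ?_
    have h1 : Tendsto (fun j => (e j, x)) atTop (𝓝 (l0, x)) := hl.prodMk_nhds tendsto_const_nhds
    filter_upwards [h1.eventually (h0 l0 x (hbU x (hr4 hx)) (ε / 2) (half_pos hε))] with j hj
    exact hj.trans_lt (half_lt_self hε)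
  have hy4 : y0 ∈ ball y0 (r / 2 / 2) := mem_ball_self (by positivity)
  exact (hT k).tendsto_comp
    (((hs l0).contDiffAt (hU.mem_nhds hy0)).continuousAt_iteratedFDeriv
      (by exact_mod_cast le_top)).continuousWithinAt hy4
    (tendsto_nhdsWithin_iff.2 ⟨hy, hy.eventually (isOpen_ball.mem_nhds hy4)⟩)

/-- **CONT** -/
theorem cont (hE : EstStmt) (hA : ArzStmt) : ContStmt := by
  intro n X _ A P _ _ _ Λ _ _ J Φ I C c Ω u hΩ hJ hΦ hC hG hβ hc hu hI h0 p
  have hU := A.isOpen_tg hΩ p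
  refine cj_of_zero hE hA hU hΦ (fun l => (hJ l).riem p) (hG p) (hβ p) (hc p)
    (fun l x hx => hC l _ hx.2) (fun l => (hu l).1 p) (fun l x hx => hI l _ hx.2)
    (fun l x hx => ?_) fun l0 x hx ε hε => ?_
  · obtain ⟨e1, e2⟩ := (hJ l).chart p _ hx.2 ((A.ch p).map_target hx.1) (u l)
      ((hu l).1.smN hΩ hx.2)
    rw [(A.ch p).right_inv hx.1] at e1 e2
    rw [← e1, ← e2]
    exact (hu l).2 _ hx.2
  · have h1 := cont_zero hΩ hJ hΦ hC hG hβ hc hu hI (half_pos hε) (h0 l0 _ (half_pos hε))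
    have h2 : ∀ᶠ y in 𝓝 x, dist ((u l0 ∘ (A.ch p).symm) y) ((u l0 ∘ (A.ch p).symm) x) < ε / 2 :=
      Metric.tendsto_nhds.1 (((hu l0).1 p).continuousOn.continuousAt (hU.mem_nhds hx)) _
        (half_pos hε)
    filter_upwards [h1.prod_nhds (h2.and (hU.mem_nhds hx))] with z hz
    have h3 := hz.1 _ hz.2.2.2
    have h4 := hz.2.1
    rw [Real.dist_eq] at h4
    simp only [Function.comp] at h4 ⊢
    rw [abs_le] at h3 ⊢
    constructor <;> linarith [(abs_lt.1 h4).1, (abs_lt.1 h4).2, h3.1, h3.2]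

end Crest.Agent.N222.J
end
end

-- ▼ part N222/J/Jet
section

/-!
# Row 222, toolbox J (helper41): continuity of the operator in the jets, uniform ellipticity
-/

set_option autoImplicit false

open Set Filter Topology Metric
open scoped ContDiff
open Crest.GeometryTopology.CoordMetric
open Crest.Agent.R238 (Ell)

noncomputable section

namespace Crest.Agent.N222.J

variable {n : ℕ}

/-- uniform ellipticity on compact sets -/
theorem exists_ell2 {Z : Type*} [TopologicalSpace Z] {K : Set Z} (hK : IsCompact K)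
    {A : Z → Matrix (Fin n) (Fin n) ℝ} (hA : ∀ i j, ContinuousOn (fun z => A z i j) K)
    (hp : ∀ z ∈ K, (A z).PosDef) : ∃ lo hi : ℝ, 0 < lo ∧ lo ≤ hi ∧ ∀ z ∈ K, Ell lo hi (A z) := by
  have hc : ContinuousOn (fun q : Z × E n => ∑ i, ∑ j, A q.1 i j * q.2 i * q.2 j)
      (K ×ˢ sphere 0 1) := continuousOn_finsetSum _ fun i _ => continuousOn_finsetSum _ fun j _ =>
    (((hA i j).comp continuousOn_fst fun _ h => h.1).mul (by fun_prop)).mul (by fun_prop)
  have hK' := hK.prod (isCompact_sphere (0 : E n) 1)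
  obtain ⟨lo, hlo, H⟩ := hK'.exists_forall_le' hc (a := 0) fun q hq => by
    have h0 : (q.2 : Fin n → ℝ) ≠ 0 := fun h => by
      have h1 : q.2 = 0 := by ext i; exact congrFun h i
      simpa [h1] using hq.2
    have := (hp _ hq.1).dotProduct_mulVec_pos h0
    rwa [star_trivial, R238.sm_quad_eq] at this
  obtain ⟨hi, H'⟩ := hK'.exists_bound_of_continuousOn hc
  refine ⟨lo, max lo hi, hlo, le_max_left _ _, fun z hz => ⟨fun i j => ?_, fun v => ?_⟩⟩
  · simpa using ((hp z hz).1.apply j i)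
  · let w : E n := WithLp.toLp 2 v
    have hw : ∑ i, v i ^ 2 = ‖w‖ ^ 2 := (EuclideanSpace.real_norm_sq_eq w).symm
    rcases eq_or_ne w 0 with h0 | h0
    · have : ∀ i, v i = 0 := fun i => congrArg (fun y : E n => y i) h0
      simp [this]
    · have hn : 0 < ‖w‖ := norm_pos_iff.2 h0
      have hs : ‖w‖⁻¹ • w ∈ sphere (0 : E n) 1 := by simp [norm_smul, hn.ne']
      have e : ∑ i, ∑ j, A z i j * v i * v j =
          (∑ i, ∑ j, A z i j * (‖w‖⁻¹ • w) i * (‖w‖⁻¹ • w) j) * ‖w‖ ^ 2 := by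
        simp only [Finset.sum_mul]
        refine Finset.sum_congr rfl fun i _ => Finset.sum_congr rfl fun j _ => ?_
        change _ = A z i j * (‖w‖⁻¹ * v i) * (‖w‖⁻¹ * v j) * ‖w‖ ^ 2
        field_simp
      rw [e, hw]
      exact ⟨mul_le_mul_of_nonneg_right (H (z, _) ⟨hz, hs⟩) (sq_nonneg _),
        mul_le_mul_of_nonneg_right (((le_abs_self _).trans (H' (z, _) ⟨hz, hs⟩)).trans
          (le_max_right _ _)) (sq_nonneg _)⟩

theorem posDef_add_outer {G : Matrix (Fin n) (Fin n) ℝ} (hG : G.PosDef) (p : Fin n → ℝ) :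
    (G + Matrix.vecMulVec p p).PosDef :=
  hG.add_posSemidef (by simpa using Matrix.posSemidef_vecMulVec_self_star p)

theorem one_le_jW {G : Matrix (Fin n) (Fin n) ℝ} (hG : G.PosDef) (p : Fin n → ℝ) : 1 ≤ jW G p := by
  have := hG.inv.posSemidef.dotProduct_mulVec_nonneg p
  rw [star_trivial, R238.sm_quad_eq] at this
  exact Real.one_le_sqrt.2 (by linarith)

section Lim

variable {α : Type*} {l : Filter α} {G : α → Matrix (Fin n) (Fin n) ℝ}
  {G0 : Matrix (Fin n) (Fin n) ℝ} {p b : α → Fin n → ℝ} {p0 b0 : Fin n → ℝ}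
  {Γ : α → Fin n → Fin n → Fin n → ℝ} {Γ0 : Fin n → Fin n → Fin n → ℝ}
  {H : α → Fin n → Fin n → ℝ} {H0 : Fin n → Fin n → ℝ}

theorem tendsto_matInv (h0 : G0.PosDef) (hG : ∀ i j, Tendsto (fun a => G a i j) l (𝓝 (G0 i j)))
    (i j : Fin n) : Tendsto (fun a => (G a)⁻¹ i j) l (𝓝 (G0⁻¹ i j)) := by
  have h1 : Tendsto G l (𝓝 G0) := tendsto_pi_nhds.2 fun i => tendsto_pi_nhds.2 fun j => hG i j
  have h2 : ContinuousAt Inv.inv G0 := continuousAt_matrix_inv G0 (by
    rw [Ring.inverse_eq_inv']; exact continuousAt_inv₀ h0.det_pos.ne')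
  exact tendsto_pi_nhds.1 (tendsto_pi_nhds.1 (h2.tendsto.comp h1) i) j

theorem tendsto_jW (h0 : G0.PosDef) (hG : ∀ i j, Tendsto (fun a => G a i j) l (𝓝 (G0 i j)))
    (hp : ∀ i, Tendsto (fun a => p a i) l (𝓝 (p0 i))) :
    Tendsto (fun a => jW (G a) (p a)) l (𝓝 (jW G0 p0)) :=
  (tendsto_const_nhds.add (tendsto_finsetSum _ fun i _ => tendsto_finsetSum _ fun j _ =>
    ((tendsto_matInv h0 hG i j).mul (hp i)).mul (hp j))).sqrt

theorem tendsto_jQ (h0 : G0.PosDef) (hG : ∀ i j, Tendsto (fun a => G a i j) l (𝓝 (G0 i j)))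
    (hΓ : ∀ k i j, Tendsto (fun a => Γ a k i j) l (𝓝 (Γ0 k i j)))
    (hb : ∀ i, Tendsto (fun a => b a i) l (𝓝 (b0 i)))
    (hp : ∀ i, Tendsto (fun a => p a i) l (𝓝 (p0 i)))
    (hH : ∀ i j, Tendsto (fun a => H a i j) l (𝓝 (H0 i j))) :
    Tendsto (fun a => jQ (G a) (Γ a) (b a) (p a) (H a)) l (𝓝 (jQ G0 Γ0 b0 p0 H0)) := by
  have hA := tendsto_matInv (G := fun a => G a + Matrix.vecMulVec (p a) (p a))
    (posDef_add_outer h0 p0) fun i j => (hG i j).add ((hp i).mul (hp j))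
  exact ((tendsto_finsetSum _ fun i _ => tendsto_finsetSum _ fun j _ => (hA i j).mul
    ((hH i j).sub (tendsto_finsetSum _ fun k _ => (hΓ k i j).mul (hp k)))).add
    (tendsto_finsetSum _ fun i _ => (hb i).mul (tendsto_finsetSum _ fun j _ =>
      (tendsto_matInv h0 hG i j).mul (hp j)))).div (tendsto_jW h0 hG hp)
    (one_pos.trans_le (one_le_jW h0 p0)).ne'

end Lim

theorem d1_eq_iter (u : E n → ℝ) (x : E n) (i : Fin n) :
    d1 u x i = iteratedFDeriv ℝ 1 u x fun _ => EuclideanSpace.single i 1 := by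
  rw [iteratedFDeriv_one_apply]; rfl

theorem d2_eq_iter {u : E n → ℝ} {x : E n} (hu : ContDiffAt ℝ 2 u x) (i j : Fin n) :
    d2 u x i j = iteratedFDeriv ℝ 2 u x ![EuclideanSpace.single i 1, EuclideanSpace.single j 1] := by
  have hd : DifferentiableAt ℝ (fderiv ℝ u) x :=
    (hu.fderiv_right (m := 1) (by norm_num)).differentiableAt (by norm_num)
  rw [iteratedFDeriv_two_apply]
  change fderiv ℝ (fun y => fderiv ℝ u y (EuclideanSpace.single j 1)) x _ = _
  rw [fderiv_clm_apply hd (differentiableAt_const _)]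
  simp

/-- the equation passes to limits of jets -/
theorem tendsto_cQ {g : MetricField n} {β : E n → Fin n → ℝ} {U : Set (E n)}
    (hg : IsRiemannianOn g U) {w : ℕ → E n → ℝ} {h : E n → ℝ} (hw : ∀ j, ContDiffOn ℝ ∞ (w j) U)
    (hh : ContDiffOn ℝ ∞ h U) {x : E n} (hx : x ∈ U)
    (ht : ∀ k : ℕ, Tendsto (fun j => iteratedFDeriv ℝ k (w j) x) atTop
      (𝓝 (iteratedFDeriv ℝ k h x))) :
    Tendsto (fun j => cQ g β (w j) x) atTop (𝓝 (cQ g β h x)) ∧
      Tendsto (fun j => cW g (w j) x) atTop (𝓝 (cW g h x)) := by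
  have hn := hg.isOpen.mem_nhds hx
  have h1 : ∀ i, Tendsto (fun j => d1 (w j) x i) atTop (𝓝 (d1 h x i)) := fun i => by
    simp only [d1_eq_iter]
    exact ((continuous_eval_const _).tendsto _).comp (ht 1)
  have h2 : ∀ i l, Tendsto (fun j => d2 (w j) x i l) atTop (𝓝 (d2 h x i l)) := fun i l => by
    simp only [fun j => d2_eq_iter (((hw j).contDiffAt hn).of_le (by norm_cast)) i l,
      d2_eq_iter ((hh.contDiffAt hn).of_le (by norm_cast)) i l]
    exact ((continuous_eval_const _).tendsto _).comp (ht 2)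
  simp only [fun j => nd n g β _ U hg (hw j) x hx, nd n g β _ U hg hh x hx, cW_eq]
  exact ⟨tendsto_jQ (hg.posDef x hx) (fun _ _ => tendsto_const_nhds)
    (fun _ _ _ => tendsto_const_nhds) (fun _ => tendsto_const_nhds) h1 h2,
    tendsto_jW (hg.posDef x hx) (fun _ _ => tendsto_const_nhds) h1⟩

end Crest.Agent.N222.J
end
end

-- ▼ part N222/J/Perron
section

/-!
# Row 222, toolbox J (helper41): Perron's method
-/

set_option autoImplicit false

open Set Filter Topology Metric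
open scoped ContDiff
open Crest.GeometryTopology.CoordMetric

noncomputable section

namespace Crest.Agent.N222.J

variable {n : ℕ} {X : Type} [TopologicalSpace X] {A : Atl n X} {J : JOp n X} {Ω : Set X} {p : X}
  {P : Type} {Φ : P × ℝ × ℝ → ℝ} {c : X → P}

theorem test_of_ch (hJ : J.On A Ω) {w : E n → ℝ} (hw : ContDiff ℝ ∞ w) {x : E n}
    (hx : x ∈ A.tg p Ω) : A.SmN (fun q => w (A.ch p q)) ((A.ch p).symm x) ∧
    J.Q (fun q => w (A.ch p q)) ((A.ch p).symm x) = cQ (J.G p) (J.β p) w x ∧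
    J.W (fun q => w (A.ch p q)) ((A.ch p).symm x) = cW (J.G p) w x := by
  have hs := (A.ch p).map_target hx.1
  have h1 : A.SmN (fun q => w (A.ch p q)) ((A.ch p).symm x) :=
    Atl.smN_of_ch isOpen_univ hw.contDiffOn hs (mem_univ _)
  obtain ⟨e1, e2⟩ := hJ.chart p _ hx.2 hs _ h1
  have h2 : (fun q => w (A.ch p q)) ∘ (A.ch p).symm =ᶠ[𝓝 x] w := by
    filter_upwards [(A.ch p).open_target.mem_nhds hx.1] with y hy
    rw [Function.comp, (A.ch p).right_inv hy]
  rw [(A.ch p).right_inv hx.1] at e1 e2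
  exact ⟨h1, e1.trans (cQ_congr h2), e2.trans (cW_congr h2)⟩

theorem max_of_ch {v : X → ℝ} {w : E n → ℝ} {x : E n} (hx : x ∈ (A.ch p).target)
    (h : IsLocalMax (fun y => v ((A.ch p).symm y) - w y) x) :
    IsLocalMax (fun q => v q - w (A.ch p q)) ((A.ch p).symm x) := by
  refine Atl.isLocalMax_of_ch (p := p) ((A.ch p).map_target hx) ?_
  rw [(A.ch p).right_inv hx]
  refine h.congr ?_
  filter_upwards [(A.ch p).open_target.mem_nhds hx] with y hy
  rw [Function.comp, (A.ch p).right_inv hy]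

theorem VSub.ch (hJ : J.On A Ω) {v : X → ℝ} {w : E n → ℝ} (hw : ContDiff ℝ ∞ w) {x : E n}
    (hx : x ∈ A.tg p Ω) (hv : VSub A J Φ c v ((A.ch p).symm x))
    (h : IsLocalMax (fun y => v ((A.ch p).symm y) - w y) x) :
    Φ (c ((A.ch p).symm x), v ((A.ch p).symm x), (cW (J.G p) w x)⁻¹) ≤ cQ (J.G p) (J.β p) w x := by
  obtain ⟨h1, h2, h3⟩ := test_of_ch hJ hw hx
  rw [← h2, ← h3]
  exact hv _ h1 (max_of_ch hx.1 h)

theorem VSup.ch (hJ : J.On A Ω) {v : X → ℝ} {w : E n → ℝ} (hw : ContDiff ℝ ∞ w) {x : E n}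
    (hx : x ∈ A.tg p Ω) (hv : VSup A J Φ c v ((A.ch p).symm x))
    (h : IsLocalMax (fun y => w y - v ((A.ch p).symm y)) x) :
    cQ (J.G p) (J.β p) w x ≤ Φ (c ((A.ch p).symm x), v ((A.ch p).symm x), (cW (J.G p) w x)⁻¹) := by
  obtain ⟨h1, h2, h3⟩ := test_of_ch hJ hw hx
  rw [← h2, ← h3]
  have h4 := max_of_ch (v := fun q => -v q) (w := fun y => -w y) hx.1
    (h.congr (Eventually.of_forall fun y => by ring))
  exact hv _ h1 (h4.neg.congr (Eventually.of_forall fun y => by ring))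

/-- the Perron class -/
structure PS (A : Atl n X) (J : JOp n X) (Φ : P × ℝ × ℝ → ℝ) (c : X → P) (Ω : Set X)
    (wm wp v : X → ℝ) : Prop where
  cont : ContinuousOn v Ω
  sub : ∀ p ∈ Ω, VSub A J Φ c v p
  lo : ∀ p ∈ Ω, wm p ≤ v p
  hi : ∀ p ∈ Ω, v p ≤ wp p

variable {wm wp v : X → ℝ}

theorem PS.max {v' : X → ℝ} (h : PS A J Φ c Ω wm wp v) (h' : PS A J Φ c Ω wm wp v') :
    PS A J Φ c Ω wm wp fun q => max (v q) (v' q) :=
  ⟨h.cont.sup h'.cont, fun p hp => (h.sub p hp).max (h'.sub p hp),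
    fun p hp => (h.lo p hp).trans (le_max_left _ _), fun p hp => max_le (h.hi p hp) (h'.hi p hp)⟩

/-- a continuous function that is `≤ m` off the ball and has no local maximum above `m` -/
theorem le_of_no_max {f : E n → ℝ} {z : E n} {r s m : ℝ} (hrs : r ≤ s)
    (hf : ContinuousOn f (closedBall z s)) (h1 : ∀ x ∈ closedBall z s, x ∉ ball z r → f x ≤ m)
    (h2 : ∀ x ∈ closedBall z s, IsLocalMax f x → f x ≤ m) : ∀ x ∈ closedBall z s, f x ≤ m := by
  intro x hx
  obtain ⟨y, hy, hm⟩ := (isCompact_closedBall z s).exists_isMaxOn ⟨x, hx⟩ hf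
  refine (hm hx).trans ?_
  by_cases hb : y ∈ ball z r
  · exact h2 y hy (hm.isLocalMax (mem_of_superset (isOpen_ball.mem_nhds hb)
      (ball_subset_closedBall.trans (closedBall_subset_closedBall hrs))))
  · exact h1 y hy hb

variable [NormedAddCommGroup P] [NormedSpace ℝ P] [FiniteDimensional ℝ P] {I : Set ℝ}

theorem lift [T2Space X] (hP : PenStmt) (hΩ : IsOpen Ω) (hJ : J.On A Ω) (hΦ : Good Φ I (c '' Ω))
    (hc : A.SmOn Ω c) (hwp : ContinuousOn wp Ω) (hsup : ∀ p ∈ Ω, VSup A J Φ c wp p) {z : E n}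
    {r a b η ε : ℝ} (hr : 0 < r) (hz : closedBall z (4 * r) ⊆ A.tg p Ω) (hab : Icc a b ⊆ I)
    (hb : ∀ x ∈ closedBall z (4 * r), a + η ≤ wm ((A.ch p).symm x) ∧ wp ((A.ch p).symm x) + η ≤ b)
    (hε : 0 < ε) (hη : 3 * ε ≤ η) (hv : PS A J Φ c Ω wm wp v) :
    ∃ (w : E n → ℝ) (v' : X → ℝ), ContDiff ℝ ∞ w ∧ PS A J Φ c Ω wm wp v' ∧ ∀ x ∈ ball z r,
      v ((A.ch p).symm x) - 3 * ε ≤ w x ∧ w x - 3 * ε ≤ v' ((A.ch p).symm x) ∧ w x ∈ Icc a b ∧
      cQ (J.G p) (J.β p) w x = Φ (c ((A.ch p).symm x), w x, (cW (J.G p) w x)⁻¹) := by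
  classical
  set e := A.ch p with he
  have h34 : closedBall z (3 * r) ⊆ closedBall z (4 * r) :=
    closedBall_subset_closedBall (by linarith)
  have h3 : closedBall z (3 * r) ⊆ A.tg p Ω := h34.trans hz
  have hvI : ∀ x ∈ closedBall z (3 * r), a + η ≤ v (e.symm x) ∧ v (e.symm x) ≤ wp (e.symm x) ∧
      wp (e.symm x) + η ≤ b := fun x hx =>
    ⟨(hb x (h34 hx)).1.trans (hv.lo _ (h3 hx).2), hv.hi _ (h3 hx).2, (hb x (h34 hx)).2⟩
  have hz0 := hvI z (mem_closedBall_self (by linarith))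
  obtain ⟨w, hw, H⟩ := hP n P Φ I (A.tg p Ω) (J.G p) (J.β p) (c ∘ e.symm) z r a b ε (v ∘ e.symm)
    (hΦ.mono fun _ ⟨y, hy, h⟩ => ⟨_, hy.2, h⟩) (hJ.riem p) (hJ.βs p) (hc p) hr hz (by linarith)
    hab hε (A.continuousOn_ch hv.cont p)
  simp only [Function.comp] at H
  have hd : ∀ x ∈ closedBall z (3 * r), w x - wp (e.symm x) ≤ 3 * ε := by
    refine le_of_no_max (r := 2 * r) (by linarith)
      (hw.continuous.continuousOn.sub ((A.continuousOn_ch hwp p).mono h3)) (fun x hx hb => ?_)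
      fun x hx hm => ?_
    · linarith [(abs_le.1 ((H x hx).2.2.2 hb)).2, (hvI x hx).2.1]
    · by_contra hh
      obtain ⟨k1, k2, k3⟩ := hvI x hx
      have := (H x hx).1 (wp (e.symm x)) ⟨by linarith, by linarith⟩ (by linarith) (by linarith)
      linarith [VSup.ch hJ hw (h3 hx) (hsup _ (h3 hx).2) hm]
  have hl : ∀ x ∈ closedBall z (3 * r), v (e.symm x) - w x ≤ 3 * ε := by
    refine le_of_no_max (r := 2 * r) (by linarith)
      (((A.continuousOn_ch hv.cont p).mono h3).sub hw.continuous.continuousOn) (fun x hx hb => ?_)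
      fun x hx hm => ?_
    · linarith [(abs_le.1 ((H x hx).2.2.2 hb)).1]
    · by_contra hh
      obtain ⟨k1, k2, k3⟩ := hvI x hx
      have := (H x hx).2.1 (v (e.symm x)) ⟨by linarith, by linarith⟩ (by linarith) (by linarith)
      linarith [VSub.ch hJ hw (h3 hx) (hv.sub _ (h3 hx).2) hm]
  let O : Set X := e.source ∩ e ⁻¹' ball z (3 * r)
  have hO : IsOpen O := e.isOpen_inter_preimage isOpen_ball
  let ψ : X → ℝ := fun q => w (e q) + -(3 * ε)
  let v' : X → ℝ := fun q => if q ∈ O then max (v q) (ψ q) else v q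
  have hle : ∀ q, v q ≤ v' q := fun q => by
    simp only [v']; split_ifs
    exacts [le_max_left _ _, le_rfl]
  have hin : ∀ q ∈ O, v' q = max (v q) (ψ q) := fun q hq => if_pos hq
  let K : Set X := e.symm '' closedBall z (2 * r)
  have h23 : closedBall z (2 * r) ⊆ ball z (3 * r) := closedBall_subset_ball (by linarith)
  have hK : IsClosed K := ((isCompact_closedBall z _).image_of_continuousOn
    (e.continuousOn_symm.mono fun y hy => (h3 (ball_subset_closedBall (h23 hy))).1)).isClosed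
  have hKO : K ⊆ O := by
    rintro _ ⟨y, hy, rfl⟩
    have := (h3 (ball_subset_closedBall (h23 hy))).1
    exact ⟨e.map_target this, by rw [mem_preimage, e.right_inv this]; exact h23 hy⟩
  have hout : ∀ q, q ∉ K → v' q = v q := fun q hq => by
    by_cases hqO : q ∈ O
    · have h1 : e q ∉ ball z (2 * r) := fun h =>
        hq ⟨e q, ball_subset_closedBall h, e.left_inv hqO.1⟩
      have h2 := (abs_le.1 ((H _ (ball_subset_closedBall hqO.2)).2.2.2 h1)).2
      rw [e.left_inv hqO.1] at h2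
      rw [hin q hqO, max_eq_left (by simp only [ψ]; linarith)]
    · exact if_neg hqO
  refine ⟨w, v', hw, ⟨fun q hq => ?_, fun q hq => ?_, fun q hq => (hv.lo q hq).trans (hle q),
    fun q hq => ?_⟩, fun x hx => ?_⟩
  · have hvq := hv.cont.continuousAt (hΩ.mem_nhds hq)
    refine ContinuousAt.continuousWithinAt ?_
    by_cases hqO : q ∈ O
    · have hψ : ContinuousAt ψ q :=
        (hw.continuous.continuousAt.comp (e.continuousAt hqO.1)).add continuousAt_const
      have hm : ContinuousAt (fun y => max (v y) (ψ y)) q := hvq.max hψ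
      refine hm.congr ?_
      filter_upwards [hO.mem_nhds hqO] with y hy using (hin y hy).symm
    · refine hvq.congr ?_
      filter_upwards [hK.isOpen_compl.mem_nhds fun h => hqO (hKO h)] with y hy
        using (hout y hy).symm
  · rcases (hle q).eq_or_lt with h | h
    · exact (hv.sub q hq).of_le h (Eventually.of_forall hle)
    · have hqO : q ∈ O := by
        by_contra hh
        exact h.ne' (if_neg hh)
      have h1 : v q < ψ q := by
        rw [hin q hqO] at h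
        exact (lt_max_iff.1 h).resolve_left (lt_irrefl _)
      have hx := ball_subset_closedBall hqO.2
      obtain ⟨t1, t2, t3⟩ := test_of_ch hJ (hw.add (contDiff_const (c := -(3 * ε)))) (h3 hx)
      obtain ⟨k1, k2, k3⟩ := hvI _ hx
      have k4 := hd _ hx
      have k5 := (H _ hx).1 (ψ q)
      rw [← he, e.left_inv hqO.1] at t1 t2 t3
      rw [e.left_inv hqO.1] at k1 k2 k3 k4 k5
      rw [cQ_add_const] at t2
      rw [cW_add_const] at t3
      simp only [ψ] at h1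
      refine (vsub_of_sm hΩ hJ hq t1 ?_).of_le ((hin q hqO).trans (max_eq_right h1.le)).symm ?_
      · rw [t2, t3]
        exact (k5 ⟨by simp only [ψ]; linarith, by simp only [ψ]; linarith⟩
          (by simp only [ψ]; linarith) (by linarith)).le
      · filter_upwards [hO.mem_nhds hqO] with y hy
        rw [hin y hy]; exact le_max_right _ _
  · by_cases hqO : q ∈ O
    · have k4 := hd _ (ball_subset_closedBall hqO.2)
      rw [e.left_inv hqO.1] at k4
      rw [hin q hqO]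
      exact max_le (hv.hi q hq) (by simp only [ψ]; linarith)
    · rw [show v' q = v q from if_neg hqO]; exact hv.hi q hq
  · have hx3 : x ∈ ball z (3 * r) := ball_subset_ball (by linarith) hx
    have hx' := ball_subset_closedBall hx3
    have ht := (h3 hx').1
    obtain ⟨k1, k2, k3⟩ := hvI _ hx'
    have hI : w x ∈ Icc a b := ⟨by linarith [hl x hx'], by linarith [hd x hx']⟩
    refine ⟨by linarith [hl x hx'], ?_, hI, (H x hx').2.2.1 hx hI⟩
    rw [hin _ ⟨e.map_target ht, by rw [mem_preimage, e.right_inv ht]; exact hx3⟩]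
    refine le_trans (le_of_eq ?_) (le_max_right _ _)
    simp only [ψ, e.right_inv ht]; ring

theorem perron (hP : PenStmt) (hE : EstStmt) (hA : ArzStmt) : PerronStmt := by
  intro n X _ _ A P _ _ _ J Φ I c Ω wm wp hΩ hJ hΦ hc hwm hwp hI hsub hsup
  have h0 : PS A J Φ c Ω wm wp wm := ⟨hwm, hsub, fun _ _ => le_rfl, fun p hp => (hI p hp).2.2⟩
  let u : X → ℝ := fun q => sSup ((fun v => v q) '' {v | PS A J Φ c Ω wm wp v})
  have hne : ∀ q, ((fun v => v q) '' {v | PS A J Φ c Ω wm wp v}).Nonempty :=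
    fun q => ⟨_, wm, h0, rfl⟩
  have hup : ∀ q ∈ Ω, ∀ t ∈ (fun v => v q) '' {v | PS A J Φ c Ω wm wp v}, t ≤ wp q :=
    fun q hq _ ⟨v, hv, h⟩ => h ▸ hv.hi q hq
  have le_u : ∀ v, PS A J Φ c Ω wm wp v → ∀ q ∈ Ω, v q ≤ u q := fun v hv q hq =>
    le_csSup ⟨_, hup q hq⟩ ⟨v, hv, rfl⟩
  have key : ∀ p ∈ Ω, ∃ s > 0, ball (A.ch p p) s ⊆ A.tg p Ω ∧
      ContDiffOn ℝ ∞ (u ∘ (A.ch p).symm) (ball (A.ch p p) s) ∧
      cQ (J.G p) (J.β p) (u ∘ (A.ch p).symm) (A.ch p p) =
        Φ (c p, u p, (cW (J.G p) (u ∘ (A.ch p).symm) (A.ch p p))⁻¹) := by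
    intro p hp
    set e := A.ch p with he
    set z := e p with hz
    have hT := A.isOpen_tg hΩ p
    obtain ⟨R, hR, hRT⟩ := nhds_basis_closedBall.mem_iff.1 (hT.mem_nhds (A.mem_tg_self hp))
    obtain ⟨r, rfl⟩ : ∃ r, R = 4 * r := ⟨R / 4, by ring⟩
    have hr : 0 < r := by linarith
    have hB := isCompact_closedBall z (4 * r)
    have hBn : (closedBall z (4 * r)).Nonempty := ⟨z, mem_closedBall_self hR.le⟩
    obtain ⟨x1, hx1, m1⟩ := hB.exists_isMinOn hBn ((A.continuousOn_ch hwm p).mono hRT)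
    obtain ⟨x2, hx2, m2⟩ := hB.exists_isMaxOn hBn ((A.continuousOn_ch hwp p).mono hRT)
    obtain ⟨η1, hη1, k1⟩ := nhds_basis_closedBall.mem_iff.1
      (hΦ.isOpen.mem_nhds (hI _ (hRT hx1).2).1)
    obtain ⟨η2, hη2, k2⟩ := nhds_basis_closedBall.mem_iff.1
      (hΦ.isOpen.mem_nhds (hI _ (hRT hx2).2).2.1)
    set η := min η1 η2
    have hη : 0 < η := lt_min hη1 hη2
    set a := wm (e.symm x1) - η with ha
    set b := wp (e.symm x2) + η with hb
    have hab : Icc a b ⊆ I := hΦ.ord.out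
      (k1 (mem_closedBall_iff_norm.2 (by
        rw [ha, sub_sub_cancel_left, norm_neg, Real.norm_eq_abs, abs_of_pos hη]
        exact min_le_left _ _)))
      (k2 (mem_closedBall_iff_norm.2 (by
        rw [hb, add_sub_cancel_left, Real.norm_eq_abs, abs_of_pos hη]
        exact min_le_right _ _)))
    have hbd : ∀ x ∈ closedBall z (4 * r), a + η ≤ wm (e.symm x) ∧ wp (e.symm x) + η ≤ b :=
      fun x hx => ⟨by have : wm (e.symm x1) ≤ wm (e.symm x) := m1 hx; linarith,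
        by have : wp (e.symm x) ≤ wp (e.symm x2) := m2 hx; linarith⟩
    have hrT : ball z r ⊆ closedBall z (4 * r) :=
      ball_subset_closedBall.trans (closedBall_subset_closedBall (by linarith))
    let y : ℕ → E n := TopologicalSpace.denseSeq (E n)
    let ε : ℕ → ℝ := fun j => η / 3 * (1 / ((j : ℝ) + 1))
    have hε : ∀ j, 0 < ε j := fun j => by positivity
    have hεη : ∀ j, 3 * ε j ≤ η := fun j => by
      have : 1 / ((j : ℝ) + 1) ≤ 1 := Nat.one_div_le_one_div (Nat.zero_le j) |>.trans (by simp)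
      simp only [ε]; nlinarith
    have hε0 : Tendsto ε atTop (𝓝 0) := by
      simpa only [mul_zero] using tendsto_one_div_add_atTop_nhds_zero_nat.const_mul (η / 3)
    have happ : ∀ δ > 0, ∀ m : ℕ, ∃ v, PS A J Φ c Ω wm wp v ∧ ∀ k < m,
        u (e.symm (y k)) - δ ≤ v (e.symm (y k)) := fun δ hδ m => by
      induction m with
      | zero => exact ⟨wm, h0, fun k hk => absurd hk (Nat.not_lt_zero k)⟩
      | succ m ih =>
        obtain ⟨v, hv, H⟩ := ih
        obtain ⟨_, ⟨v', hv', rfl⟩, H'⟩ := exists_lt_of_lt_csSup (hne (e.symm (y m)))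
          (sub_lt_self _ hδ)
        refine ⟨_, hv.max hv', fun k hk => ?_⟩
        rcases Nat.lt_succ_iff_lt_or_eq.1 hk with h | rfl
        · exact (H k h).trans (le_max_left _ _)
        · exact H'.le.trans (le_max_right _ _)
    choose v hv Hv using fun j => happ (ε j) (hε j) j
    choose w v' hw hv' Hw using fun j =>
      lift hP hΩ hJ hΦ hc hwp hsup hr hRT hab hbd (hε j) (hεη j) (hv j)
    obtain ⟨lo, hi, hlo, -, hell⟩ := exists_ell2 hB
      (fun i j => ((hJ.riem p).contDiffOn i j).continuousOn.mono hRT)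
      fun x hx => (hJ.riem p).posDef x (hRT hx)
    have h1T : closedBall z r ⊆ A.tg p Ω := (closedBall_subset_closedBall (by linarith)).trans hRT
    have hF : Fam Φ ((c ∘ e.symm) '' closedBall z (4 * r)) a b lo hi r (fun _ : ℕ => z)
        (fun _ => J.G p) (fun _ => J.β p) (fun _ => c ∘ e.symm) w :=
      ⟨hlo, hr, fun i j => LB.single hT ((hJ.riem p).contDiffOn i j) h1T,
        fun _ x hx => hell x (hrT hx), LB.single hT (hJ.βs p) h1T, LB.single hT (hc p) h1T,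
        fun _ x hx => mem_image_of_mem _ (hrT hx), fun j => (hw j).contDiffOn,
        fun j x hx => (Hw j x hx).2.2.1, fun j x hx => (Hw j x hx).2.2.2⟩
    have hL := hE n ℕ P Φ I _ a b lo hi r _ _ _ _ _
      (hΦ.mono (by rintro _ ⟨x, hx, rfl⟩; exact ⟨_, (hRT hx).2, rfl⟩))
      (hB.image_of_continuousOn ((hc p).continuousOn.mono hRT)) hab hF
    obtain ⟨ψ, h, hψ, hlim⟩ := (hA n ℝ z (r / 2) w hL).1
    obtain ⟨hh, hjet⟩ := (hA n ℝ z (r / 2) (fun j => w (ψ j))
      (hL.reindex ψ fun _ => subset_rfl)).2 h hlim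
    have hs : ball z (r / 2 / 2) ⊆ ball z r := ball_subset_ball (by linarith)
    have hsT : ball z (r / 2 / 2) ⊆ A.tg p Ω := hs.trans (hrT.trans hRT)
    have hεψ := hε0.comp hψ.tendsto_atTop
    have e1 : ∀ x ∈ ball z (r / 2 / 2), h x ≤ u (e.symm x) := fun x hx => by
      have := le_of_tendsto' ((hlim x hx).sub (hεψ.const_mul 3)) fun j =>
        (Hw (ψ j) x (hs hx)).2.1.trans (le_u _ (hv' _) _ (hsT hx).2)
      simpa using this
    have e2 : ∀ k, y k ∈ ball z (r / 2 / 2) → u (e.symm (y k)) ≤ h (y k) := fun k hk => by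
      have := ge_of_tendsto ((hlim _ hk).add (hεψ.const_mul 4)) (b := u (e.symm (y k))) (by
        filter_upwards [hψ.tendsto_atTop.eventually_gt_atTop k] with j hj
        have := Hv (ψ j) k hj
        have := (Hw (ψ j) _ (hs hk)).1
        simp only [Function.comp]; linarith)
      simpa using this
    have e3 : ∀ x ∈ ball z (r / 2 / 2), (u ∘ e.symm) x = h x := fun x hx => by
      refine le_antisymm (csSup_le (hne _) ?_) (e1 x hx)
      rintro _ ⟨f, hf, rfl⟩
      by_contra hh'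
      have hcx : ContinuousAt (fun x => (f ∘ e.symm) x - h x) x :=
        (((A.continuousOn_ch hf.cont p).mono hsT).sub hh.continuousOn).continuousAt
          (isOpen_ball.mem_nhds hx)
      obtain ⟨k, hk1, hk2⟩ := (TopologicalSpace.denseRange_denseSeq (E n)).mem_nhds
        ((hcx.eventually (lt_mem_nhds (sub_pos.2 (not_le.1 hh')))).and (isOpen_ball.mem_nhds hx))
      have := le_u f hf _ (hsT hk2).2
      have := e2 k hk2
      simp only [Function.comp] at hk1
      linarith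
    have hzb : z ∈ ball z (r / 2 / 2) := mem_ball_self (by positivity)
    have e4 : u ∘ e.symm =ᶠ[𝓝 z] h := by
      filter_upwards [isOpen_ball.mem_nhds hzb] with x hx using e3 x hx
    have e5 : e.symm z = p := e.left_inv (A.mem p)
    have e6 : u p = h z := by rw [← e3 z hzb, Function.comp, e5]
    refine ⟨r / 2 / 2, by positivity, hsT, hh.congr e3, ?_⟩
    obtain ⟨t1, t2⟩ := tendsto_cQ (β := J.β p) (riem_mono (hJ.riem p) isOpen_ball hsT)
      (fun j => (hw (ψ j)).contDiffOn) hh hzb fun k => (hjet k).tendsto_at hzb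
    have hzI : h z ∈ I := by
      rw [← e6]
      exact hΦ.ord.out (hI p hp).1 (hI p hp).2.1 ⟨le_u _ h0 p hp, csSup_le (hne p) (hup p hp)⟩
    have t3 := (hΦ.at (c p) hzI _).continuousAt.tendsto.comp
      (tendsto_const_nhds.prodMk_nhds ((hlim z hzb).prodMk_nhds
        (t2.inv₀ (cW_pos (hJ.riem p) (hsT hzb) h).ne')))
    rw [cQ_congr e4, cW_congr e4, e6]
    refine tendsto_nhds_unique t1 (t3.congr fun j => ?_)
    rw [(Hw (ψ j) z (hs hzb)).2.2.2, ← he, e5]; rfl
  have hsm : A.SmOn Ω u := Atl.smOn_of_local fun p hp => by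
    obtain ⟨s, hs, -, h2, -⟩ := key p hp
    exact ⟨_, (A.ch p).isOpen_inter_preimage isOpen_ball, ⟨A.mem p, mem_ball_self hs⟩,
      (A.smOn_of_ch h2 p).congr fun q hq => (Atl.ch_apply u hq.1).symm⟩
  refine ⟨u, ⟨hsm, fun p hp => ?_⟩, fun p hp => ⟨le_u _ h0 p hp, csSup_le (hne p) (hup p hp)⟩⟩
  obtain ⟨e1, e2⟩ := hJ.chart p p hp (A.mem p) u (hsm.smN hΩ hp)
  obtain ⟨s, -, -, -, h3⟩ := key p hp
  rw [e1, e2, h3]

end Crest.Agent.N222.J
end
end

-- ▼ part N222/J/Main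

/-!
# N222/J: the solver toolbox, assembled

Unconditional forms of the interior estimates, the Perron existence theorem and the continuity of
solutions in a parameter.
-/

namespace Crest.Agent.N222.J

/-- interior `C^k` estimates for bounded solutions -/
theorem est' : EstStmt := est gradEst (hol hol0) (up boot)

/-- existence on a torus -/
theorem tor' : TorStmt := tor est'

/-- the penalised local problem -/
theorem pen' : PenStmt := pen tor' rho

/-- Perron's method -/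
theorem perron' : PerronStmt := perron pen' est' arz

/-- continuity in a parameter -/
theorem cont' : ContStmt := cont est' arz

end Crest.Agent.N222.J
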